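import Vale.Agent.P195.Model.Alg
import Vale.Agent.P195.Weyl.Symbol
import Mathlib.Algebra.Module.Pi

/-!
P195: the orbit modules `FL j` (seven copies of the forms of degree `j`), killed by the
translation part.
-/

noncomputable section

namespace Vale.Agent.P195.Model

open Matrix MvPolynomial Weyl

/-- Forms of degree `j`. -/
abbrev Lp (j : ℕ) : Submodule ℂ Pol := homogeneousSubmodule (Fin 2) ℂ j

/-- The underlying space of the orbit module. -/
abbrev FL (j : ℕ) : Type := Fin 7 → Lp j

/-- Operators of weight zero preserve the forms of each degree. -/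
theorem apply_mem_Lp {n : ℤ} {u : Op} (hu : u ∈ fil 0 n) {j : ℕ} {f : Pol} (hf : f ∈ Lp j) :
    u f ∈ Lp j := by
  have h := apply_homog hu ((mem_homogeneousSubmodule _ _).mp hf)
  simpa using h

/-- The action of `A` through its degree-zero part. -/
def act (j : ℕ) (g : A) (f : FL j) : FL j := fun i =>
  ⟨∑ k, bPart g i k (f k : Pol), sum_mem fun k _ =>
    apply_mem_Lp (hom_entry_mem (bPart_mem g) i k) (f k).2⟩

@[simp] theorem act_val (j : ℕ) (g : A) (f : FL j) (i : Fin 7) :
    (act j g f i : Pol) = ∑ k, bPart g i k (f k : Pol) := rfl

instance FL_module (j : ℕ) : Module A (FL j) where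
  smul := act j
  one_smul f := funext fun i => Subtype.ext <| by
    show (act j 1 f i : Pol) = _
    rw [act_val, map_one, Finset.sum_eq_single i (fun k _ hk => by simp [hk.symm]) (by simp)]
    simp
  mul_smul g h f := funext fun i => Subtype.ext <| by
    show (act j (g * h) f i : Pol) = (act j g (act j h f) i : Pol)
    simp only [act_val, map_mul, Matrix.mul_apply, LinearMap.sum_apply, map_sum,
      Module.End.mul_apply]
    exact Finset.sum_comm
  smul_zero g := funext fun i => Subtype.ext <| by
    show (act j g 0 i : Pol) = 0
    simp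
  smul_add g f f' := funext fun i => Subtype.ext <| by
    show (act j g (f + f') i : Pol) = (act j g f i : Pol) + act j g f' i
    simp [Finset.sum_add_distrib]
  add_smul g h f := funext fun i => Subtype.ext <| by
    show (act j (g + h) f i : Pol) = (act j g f i : Pol) + act j h f i
    simp [Finset.sum_add_distrib]
  zero_smul f := funext fun i => Subtype.ext <| by
    show (act j 0 f i : Pol) = 0
    simp

theorem smul_val (j : ℕ) (g : A) (f : FL j) (i : Fin 7) :
    ((g • f) i : Pol) = ∑ k, bPart g i k (f k : Pol) := rfl

instance FL_tower (j : ℕ) : IsScalarTower ℂ A (FL j) where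
  smul_assoc z g f := funext fun i => Subtype.ext <| by
    simp only [smul_val, Pi.smul_apply, Submodule.coe_smul, map_smul, Matrix.smul_apply,
      LinearMap.smul_apply, Finset.smul_sum]

/-- A vertex idempotent acts as the projection onto the slots of the vertex. -/
theorem eV_smul (i : Fin 5) {j : ℕ} (f : FL j) (r : Fin 7) :
    ((eV i • f) r : Pol) = if vx r = i then (f r : Pol) else 0 := by
  rw [smul_val, Finset.sum_eq_single r
    (fun k _ hk => by simp [eV, vproj, diagonal_apply_ne _ hk.symm]) (by simp)]
  simp only [eV, bPart_mk, vproj, diagonal_apply_eq]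
  split_ifs <;> simp

end Vale.Agent.P195.Model
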