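import Vale.Agent.P195.Model.MapsMat
import Vale.Agent.P195.Model.Orbit

/-!
P195: the resolution `Q j` of the orbit module of degree `j`, its differentials as `A`-linear maps
and the translation lift `Q (j + 1) → Q j`, scaled by `(j + 1) ^ 2`.
-/

noncomputable section

namespace Vale.Agent.P195.Model

open Matrix MvPolynomial Weyl
open scoped TensorProduct

/-- Forms of degree `j - 1`, and nothing for `j = 0`. -/
def Lm : ℕ → Submodule ℂ Pol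
  | 0 => ⊥
  | j + 1 => Lp j

/-- The multiplicities of `O1`. -/
abbrev W1 (j : ℕ) : Type := Fin 2 → Fin 2 → Lp j

/-- The four terms. -/
abbrev Q0 (j : ℕ) : Type := Qm 4 (Lp j)
abbrev Q1 (j : ℕ) : Type := Qm 3 (W1 j)
abbrev Q2 (j : ℕ) : Type := Qm 1 (Lm j) × Qm 2 (Lp (j + 1))
abbrev Q3 (j : ℕ) : Type := Qm 0 (Lp j)

theorem x_apply_mem (i : Fin 2) {j : ℕ} {f : Pol} (hf : f ∈ Lp j) : x i f ∈ Lp (j + 1) := by
  have h := apply_homog (Weyl.x_mem i le_rfl) ((mem_homogeneousSubmodule _ _).mp hf)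
  rwa [show ((j : ℤ) + 1).toNat = j + 1 by omega] at h

theorem d_apply_mem (i : Fin 2) {j : ℕ} {f : Pol} (hf : f ∈ Lp (j + 1)) : d i f ∈ Lp j := by
  have h := apply_homog (Weyl.d_mem i le_rfl) ((mem_homogeneousSubmodule _ _).mp hf)
  rwa [show (((j + 1 : ℕ) : ℤ) + -1).toNat = j by omega] at h

theorem aT_mem {j : ℕ} (i k : Fin 2) (f : Lp j) : (x i * d k) (f : Pol) ∈ Lp j :=
  apply_mem_Lp (a_mem i k (n := 1) le_rfl) f.2

/-- `x i ∂ k` on forms of degree `j`. -/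
def aT (j : ℕ) (i k : Fin 2) : Lp j →ₗ[ℂ] Lp j :=
  ((x i * d k).comp (Lp j).subtype).codRestrict (Lp j) fun f => aT_mem i k f

theorem dT_mem {j : ℕ} (i : Fin 2) (f : Lp (j + 1)) : d i (f : Pol) ∈ Lp j := d_apply_mem i f.2

/-- `∂ i` from degree `j + 1` to degree `j`. -/
def dT (j : ℕ) (i : Fin 2) : Lp (j + 1) →ₗ[ℂ] Lp j :=
  ((d i).comp (Lp (j + 1)).subtype).codRestrict (Lp j) fun f => dT_mem i f

theorem dP_mem {j : ℕ} (i : Fin 2) (f : Lp j) : d i (f : Pol) ∈ Lm j := by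
  match j, f with
  | 0, f =>
    rw [apply_eq_zero (Weyl.d_mem i le_rfl) ((mem_homogeneousSubmodule _ _).mp f.2) (by norm_num)]
    exact zero_mem _
  | j + 1, f => exact d_apply_mem i f.2

/-- `∂ i` from degree `j` to degree `j - 1`. -/
def dP (j : ℕ) (i : Fin 2) : Lp j →ₗ[ℂ] Lm j :=
  ((d i).comp (Lp j).subtype).codRestrict (Lm j) fun f => dP_mem i f

theorem xT_mem {j : ℕ} (i : Fin 2) (f : Lp j) : x i (f : Pol) ∈ Lp (j + 1) := x_apply_mem i f.2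

/-- `x i` from degree `j` to degree `j + 1`. -/
def xT (j : ℕ) (i : Fin 2) : Lp j →ₗ[ℂ] Lp (j + 1) :=
  ((x i).comp (Lp j).subtype).codRestrict (Lp (j + 1)) fun f => xT_mem i f

theorem xP_mem {j : ℕ} (i : Fin 2) (f : Lm j) : x i (f : Pol) ∈ Lp j := by
  match j, f with
  | 0, f =>
    rw [show (f : Pol) = 0 from (Submodule.mem_bot ℂ).mp f.2, map_zero]
    exact zero_mem _
  | j + 1, f => exact x_apply_mem i f.2

/-- `x i` from degree `j - 1` to degree `j`. -/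
def xP (j : ℕ) (i : Fin 2) : Lm j →ₗ[ℂ] Lp j :=
  ((x i).comp (Lm j).subtype).codRestrict (Lp j) fun f => xP_mem i f

/-- The coordinate `(i, k)` of `W1`. -/
def pr (j : ℕ) (i k : Fin 2) : W1 j →ₗ[ℂ] Lp j := LinearMap.proj k ∘ₗ LinearMap.proj i

/-- The inclusion at the coordinate `(i, k)` of `W1`. -/
def inW (j : ℕ) (i k : Fin 2) : Lp j →ₗ[ℂ] W1 j :=
  LinearMap.single ℂ (fun _ : Fin 2 => Fin 2 → Lp j) i ∘ₗ
    LinearMap.single ℂ (fun _ : Fin 2 => Lp j) k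

/-- The lift on `W1`: `∂ m` in each coordinate. -/
def dW (j : ℕ) (m : Fin 2) : W1 (j + 1) →ₗ[ℂ] W1 j :=
  LinearMap.pi fun i => LinearMap.pi fun k => dT j m ∘ₗ pr (j + 1) i k

variable {W W' : Type*} [AddCommGroup W] [Module ℂ W] [AddCommGroup W'] [Module ℂ W']

/-- `mapQ` of a degree-zero matrix between two vertices. -/
def mqB {k l : Fin 5} {M : Mat} (hM : M ∈ hom 0 0) (hs : Sup k l M) (T : W →ₗ[ℂ] W') :
    Qm k W →ₗ[A] Qm l W' :=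
  mapQ (ofB M hM) (ofB_mul_eV hs.2) T

/-- `mapQ` of a translation matrix between two vertices. -/
def mqN {k l : Fin 5} {M : Mat} (hM : M ∈ hom 1 2) (hs : Sup k l M) (T : W →ₗ[ℂ] W') :
    Qm k W →ₗ[A] Qm l W' :=
  mapQ (ofN M hM) (ofN_mul_eV hs.2) T

/-- The parameter of the formulas. -/
abbrev cc (j : ℕ) : ℂ := (j : ℂ) + 1

/-- First differential. -/
def d1 (j : ℕ) : Q1 j →ₗ[A] Q0 j :=
  ∑ i, ∑ k, (mqB (hom_A i k) (sup_A i k) (pr j i k)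
    + mqB hom_J sup_J ((-1 : ℂ) • (aT j i k ∘ₗ pr j i k)))

/-- Second differential from `S+`. -/
def d2p (j : ℕ) : Qm 1 (Lm j) →ₗ[A] Q1 j :=
  ∑ i, ∑ k, (mqB (hom_Bp i) (sup_Bp i) (inW j i k ∘ₗ xP j k)
    + mqB (hom_Up i) (sup_Up i) (-cc j • (inW j i k ∘ₗ xP j k))
    + mqB (hom_Up k) (sup_Up k) (cc j • (inW j i i ∘ₗ xP j k)))

/-- Second differential from `S-`. -/
def d2m (j : ℕ) : Qm 2 (Lp (j + 1)) →ₗ[A] Q1 j :=
  ∑ i, ∑ k, (mqB (hom_Bm k) (sup_Bm k) (inW j i k ∘ₗ dT j i)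
    + mqB (hom_Um k) (sup_Um k) (-cc j • (inW j i k ∘ₗ dT j i))
    + mqB (hom_Um k) (sup_Um k) (cc j • (inW j i i ∘ₗ dT j k)))

/-- Second differential. -/
def d2 (j : ℕ) : Q2 j →ₗ[A] Q1 j := (d2p j).coprod (d2m j)

/-- Third differential into `S+`. -/
def d3p (j : ℕ) : Q3 j →ₗ[A] Qm 1 (Lm j) :=
  ∑ m, (mqB (hom_Gp m) (sup_Gp m) (dP j m) + mqB (hom_Vp m) (sup_Vp m) (-cc j • dP j m))

/-- Third differential into `S-`. -/
def d3m (j : ℕ) : Q3 j →ₗ[A] Qm 2 (Lp (j + 1)) :=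
  ∑ m, (mqB (hom_Vm m) (sup_Vm m) (cc j • xT j m)
    + mqB (hom_Gm m) (sup_Gm m) ((-1 : ℂ) • xT j m))

/-- Third differential. -/
def d3 (j : ℕ) : Q3 j →ₗ[A] Q2 j := (d3p j).prod (d3m j)

/-- The lift on `O2`. -/
def m0 (j : ℕ) : Q0 (j + 1) →ₗ[A] Q0 j :=
  ∑ m, mqN (hom_X 4 m) (sup_X 4 m) (cc j ^ 2 • dT j m)

/-- The lift on `O1`. -/
def m1 (j : ℕ) : Q1 (j + 1) →ₗ[A] Q1 j :=
  ∑ m, mqN (hom_X 3 m) (sup_X 3 m) (cc j ^ 2 • dW j m)

/-- The lift from `S+` to `S+`. -/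
def m2pp (j : ℕ) : Qm 1 (Lm (j + 1)) →ₗ[A] Qm 1 (Lm j) :=
  ∑ m, mqN (hom_X 1 m) (sup_X 1 m) ((cc j * (cc j + 1)) • dP j m)

/-- The lift from `S+` to `S-`. -/
def m2pm (j : ℕ) : Qm 1 (Lm (j + 1)) →ₗ[A] Qm 2 (Lp (j + 1)) :=
  ∑ m, (mqN (hom_F m) (sup_F m) (xT j m) + mqN (hom_H m) (sup_H m) ((cc j - 1) • xT j m)
    + mqN (hom_K m) (sup_K m) (xT j m))

/-- The lift from `S-` to `S-`. -/
def m2mm (j : ℕ) : Qm 2 (Lp (j + 2)) →ₗ[A] Qm 2 (Lp (j + 1)) :=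
  ∑ m, (mqN (hom_X 2 m) (sup_X 2 m) (cc j ^ 2 • dT (j + 1) m)
    + mqN (hom_C m) (sup_C m) (cc j • dT (j + 1) m))

/-- The lift on the middle term. -/
def m2 (j : ℕ) : Q2 (j + 1) →ₗ[A] Q2 j :=
  ((m2pp j).prod (m2pm j)).coprod ((0 : _ →ₗ[A] Qm 1 (Lm j)).prod (m2mm j))

/-- The lift on `O0`. -/
def m3 (j : ℕ) : Q3 (j + 1) →ₗ[A] Q3 j :=
  ∑ m, mqN (hom_X 0 m) (sup_X 0 m) ((cc j * (cc j + 1)) • dT j m)

section Cochains

variable {X : Type*} [AddCommGroup X] [Module A X] [Module ℂ X] [IsScalarTower ℂ A X] {j : ℕ}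

/-- The cochain map of `mqB`. -/
theorem cochain_mqB {k l : Fin 5} {M : Mat} (hM : M ∈ hom 0 0) (hs : Sup k l M) (T : W →ₗ[ℂ] W')
    (φ : Qm l W' →ₗ[A] X) (w : W) :
    φ (mqB hM hs T (gE k ⊗ₜ[ℂ] w)) = ofB M hM • (homEquiv l φ (T w) : X) :=
  homEquiv_comp_mapQ _ (eV_mul_ofB hs.1) _ _ φ w

/-- The cochain map of `mqN`. -/
theorem cochain_mqN {k l : Fin 5} {M : Mat} (hM : M ∈ hom 1 2) (hs : Sup k l M) (T : W →ₗ[ℂ] W')
    (φ : Qm l W' →ₗ[A] X) (w : W) :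
    φ (mqN hM hs T (gE k ⊗ₜ[ℂ] w)) = ofN M hM • (homEquiv l φ (T w) : X) :=
  homEquiv_comp_mapQ _ (eV_mul_ofN hs.1) _ _ φ w

theorem d1_cochain (φ : Q0 j →ₗ[A] X) (w : W1 j) :
    (homEquiv 3 (φ.comp (d1 j)) w : X) = ∑ i, ∑ k,
      (ofB (mA i k) (hom_A i k) • (homEquiv 4 φ (w i k) : X) +
        ofB mJ hom_J • (homEquiv 4 φ ((-1 : ℂ) • aT j i k (w i k)) : X)) := by
  simp only [d1, homEquiv_apply, LinearMap.comp_apply, LinearMap.sum_apply, LinearMap.add_apply,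
    map_sum, map_add, cochain_mqB, LinearMap.smul_apply]
  rfl

theorem d2p_cochain (φ : Q1 j →ₗ[A] X) (w : Lm j) :
    (homEquiv 1 (φ.comp (d2p j)) w : X) = ∑ i, ∑ k,
      (ofB (mBp i) (hom_Bp i) • (homEquiv 3 φ (inW j i k (xP j k w)) : X) +
        ofB (mUp i) (hom_Up i) • (homEquiv 3 φ (-cc j • inW j i k (xP j k w)) : X) +
        ofB (mUp k) (hom_Up k) • (homEquiv 3 φ (cc j • inW j i i (xP j k w)) : X)) := by
  simp only [d2p, homEquiv_apply, LinearMap.comp_apply, LinearMap.sum_apply, LinearMap.add_apply,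
    map_sum, map_add, cochain_mqB, LinearMap.smul_apply]

theorem d2m_cochain (φ : Q1 j →ₗ[A] X) (w : Lp (j + 1)) :
    (homEquiv 2 (φ.comp (d2m j)) w : X) = ∑ i, ∑ k,
      (ofB (mBm k) (hom_Bm k) • (homEquiv 3 φ (inW j i k (dT j i w)) : X) +
        ofB (mUm k) (hom_Um k) • (homEquiv 3 φ (-cc j • inW j i k (dT j i w)) : X) +
        ofB (mUm k) (hom_Um k) • (homEquiv 3 φ (cc j • inW j i i (dT j k w)) : X)) := by
  simp only [d2m, homEquiv_apply, LinearMap.comp_apply, LinearMap.sum_apply, LinearMap.add_apply,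
    map_sum, map_add, cochain_mqB, LinearMap.smul_apply]

theorem d3_cochain (φp : Qm 1 (Lm j) →ₗ[A] X) (φm : Qm 2 (Lp (j + 1)) →ₗ[A] X) (w : Lp j) :
    (homEquiv 0 ((φp.coprod φm).comp (d3 j)) w : X) =
      (∑ m, (ofB (mGp m) (hom_Gp m) • (homEquiv 1 φp (dP j m w) : X) +
        ofB (mVp m) (hom_Vp m) • (homEquiv 1 φp (-cc j • dP j m w) : X))) +
      ∑ m, (ofB (mVm m) (hom_Vm m) • (homEquiv 2 φm (cc j • xT j m w) : X) +
        ofB (mGm m) (hom_Gm m) • (homEquiv 2 φm ((-1 : ℂ) • xT j m w) : X)) := by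
  simp only [d3, d3p, d3m, homEquiv_apply, LinearMap.comp_apply, LinearMap.prod_apply,
    Function.prod_apply, LinearMap.coprod_apply, LinearMap.sum_apply, LinearMap.add_apply,
    map_sum, map_add, cochain_mqB, LinearMap.smul_apply]

theorem m3_cochain (φ : Q3 j →ₗ[A] X) (w : Lp (j + 1)) :
    (homEquiv 0 (φ.comp (m3 j)) w : X) = ∑ m, ofN (mX 0 m) (hom_X 0 m) •
      (homEquiv 0 φ ((cc j * (cc j + 1)) • dT j m w) : X) := by
  simp only [m3, homEquiv_apply, LinearMap.comp_apply, LinearMap.sum_apply,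
    map_sum, cochain_mqN, LinearMap.smul_apply]

end Cochains

end Vale.Agent.P195.Model
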