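import Vale.Agent.P195.Weyl.Basic
import Mathlib.Data.Matrix.Mul
import Mathlib.LinearAlgebra.Span.Basic
import Mathlib.LinearAlgebra.FiniteDimensional.Basic
import Mathlib.LinearAlgebra.Dimension.Constructions
import Mathlib.RingTheory.Noetherian.Basic
import Mathlib.RingTheory.Finiteness.Cardinality

/-!
P195: the lattices of rows over the five vertices (slots `O0 | S+ S+ | S- S- | O1 | O2`) and the
lattice-preserving matrices.
-/

noncomputable section

namespace Vale.Agent.P195.Model

open Matrix Weyl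

/-- Rows over the seven slots. -/
abbrev Row : Type := Fin 7 → Op

/-- Matrices over the seven slots. -/
abbrev Mat : Type := Matrix (Fin 7) (Fin 7) Op

/-- The vertex of a slot. -/
def vx : Fin 7 → Fin 5 := ![0, 1, 1, 2, 2, 3, 4]

/-- Weight of a lattice generator. -/
def gw : Fin 9 → ℤ := ![0, 0, 0, 0, 0, 0, 0, -1, 1]

/-- Level of a lattice generator. -/
def gn : Fin 9 → ℤ := ![0, 0, 0, 0, 0, -1, -2, 0, -1]

/-- The lattice generators: the seven unit rows, `(∂x, ∂y)` at `S+` and `(x, y)` at `S-`. -/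
def gen : Fin 9 → Row :=
  ![Pi.single 0 1, Pi.single 1 1, Pi.single 2 1, Pi.single 3 1, Pi.single 4 1, Pi.single 5 1,
    Pi.single 6 1, Pi.single 1 (d 0) + Pi.single 2 (d 1),
    Pi.single 3 (x 0) + Pi.single 4 (x 1)]

/-- `u ↦ u • c` as a linear map. -/
def smulRow (c : Row) : Op →ₗ[ℂ] Row where
  toFun u := u • c
  map_add' u v := add_smul u v c
  map_smul' t u := smul_assoc t u c

/-- The lattice of weight `w` and level `n`. -/
def lat (w n : ℤ) : Submodule ℂ Row :=
  ⨆ g : Fin 9, (fil (w - gw g) (n - gn g)).map (smulRow (gen g))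

theorem smul_gen_mem {w n : ℤ} (g : Fin 9) {u : Op} (hu : u ∈ fil (w - gw g) (n - gn g)) :
    u • gen g ∈ lat w n :=
  Submodule.mem_iSup_of_mem g ⟨u, hu, rfl⟩

theorem gen_mem (g : Fin 9) : gen g ∈ lat (gw g) (gn g) := by
  have h := smul_gen_mem (w := gw g) (n := gn g) g (u := 1)
    (by rw [sub_self, sub_self]; exact Weyl.one_mem le_rfl)
  rwa [one_smul] at h

@[elab_as_elim]
theorem lat_induction {w n : ℤ} {P : Row → Prop} (h0 : P 0) (hadd : ∀ a b, P a → P b → P (a + b))
    (hgen : ∀ g, ∀ u ∈ fil (w - gw g) (n - gn g), P (u • gen g)) {c : Row} (hc : c ∈ lat w n) :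
    P c := by
  refine Submodule.iSup_induction _ (motive := P) hc (fun g c hc => ?_) h0 hadd
  obtain ⟨u, hu, rfl⟩ := hc
  exact hgen g u hu

theorem lat_mono {w n n' : ℤ} (h : n ≤ n') : lat w n ≤ lat w n' :=
  iSup_mono fun g => Submodule.map_mono (fil_mono (by omega))

theorem smul_mem_lat {a b w n w' n' : ℤ} {u : Op} {c : Row} (hu : u ∈ fil a b) (hc : c ∈ lat w n)
    (hw : a + w = w') (hn : b + n ≤ n') : u • c ∈ lat w' n' := by
  subst hw
  refine lat_mono hn ?_
  refine lat_induction (P := fun c => u • c ∈ lat (a + w) (b + n)) ?_ ?_ ?_ hc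
  · rw [smul_zero]; exact zero_mem _
  · intro c c' h h'
    rw [smul_add]
    exact add_mem h h'
  · intro g v hv
    rw [smul_smul]
    refine smul_gen_mem g ?_
    rw [show a + w - gw g = a + (w - gw g) by omega, show b + n - gn g = b + (n - gn g) by omega]
    exact Weyl.mul_mem hu hv

theorem smul_vecMul' (u : Op) (c : Row) (M : Mat) : (u • c) ᵥ* M = u • (c ᵥ* M) := by
  ext j
  simp [vecMul, dotProduct, Finset.mul_sum, mul_assoc]

/-- Matrices that shift the lattices by weight `s` and level `t`. -/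
def hom (s t : ℤ) : Submodule ℂ Mat where
  carrier := {M | ∀ w n, ∀ c ∈ lat w n, c ᵥ* M ∈ lat (w + s) (n + t)}
  zero_mem' w n c _ := by rw [vecMul_zero]; exact zero_mem _
  add_mem' hM hM' w n c hc := by rw [vecMul_add]; exact add_mem (hM w n c hc) (hM' w n c hc)
  smul_mem' z M hM w n c hc := by rw [vecMul_smul]; exact Submodule.smul_mem _ z (hM w n c hc)

/-- Membership is checked on the nine generators. -/
theorem mem_hom_iff {s t : ℤ} {M : Mat} :
    M ∈ hom s t ↔ ∀ g, gen g ᵥ* M ∈ lat (gw g + s) (gn g + t) := by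
  refine ⟨fun h g => h _ _ _ (gen_mem g), fun h w n c hc => ?_⟩
  refine lat_induction (P := fun c => c ᵥ* M ∈ lat (w + s) (n + t)) ?_ ?_ ?_ hc
  · rw [zero_vecMul]; exact zero_mem _
  · intro a b ha hb
    rw [add_vecMul]
    exact add_mem ha hb
  · intro g u hu
    rw [smul_vecMul']
    exact smul_mem_lat hu (h g) (by omega) (by omega)

theorem hom_mul {s t s' t' s'' t'' : ℤ} {M M' : Mat} (h : M ∈ hom s t) (h' : M' ∈ hom s' t')
    (hs : s + s' = s'') (ht : t + t' ≤ t'') : M * M' ∈ hom s'' t'' := fun w n c hc => by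
  rw [← vecMul_vecMul]
  refine lat_mono (show n + t + t' ≤ n + t'' by omega) ?_
  rw [show w + s'' = w + s + s' by omega]
  exact h' _ _ _ (h w n c hc)

theorem one_mem_hom : (1 : Mat) ∈ hom 0 0 := fun w n c hc => by
  rw [vecMul_one, add_zero, add_zero]
  exact hc

/-- The projection onto the slots of a vertex. -/
def vproj (i : Fin 5) : Mat := diagonal fun r => if vx r = i then 1 else 0

/-- The vertex of a lattice generator. -/
def gvx : Fin 9 → Fin 5 := ![0, 1, 1, 2, 2, 3, 4, 1, 2]

theorem gen_support (g : Fin 9) (r : Fin 7) : gen g r = 0 ∨ vx r = gvx g := by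
  fin_cases g <;> fin_cases r <;> first
    | exact Or.inr rfl
    | exact Or.inl (by simp [gen])

theorem vproj_mem (i : Fin 5) : vproj i ∈ hom 0 0 := by
  refine mem_hom_iff.mpr fun g => ?_
  rw [add_zero, add_zero]
  have h : gen g ᵥ* vproj i = if gvx g = i then gen g else 0 := by
    ext r
    rw [vproj, vecMul_diagonal]
    rcases gen_support g r with h0 | h0
    · split_ifs <;> simp [h0]
    · by_cases hi : gvx g = i <;> simp [h0, hi]
  rw [h]
  split_ifs
  · exact gen_mem g
  · exact zero_mem _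

theorem vproj_mul_self (i : Fin 5) : vproj i * vproj i = vproj i := by
  rw [vproj, diagonal_mul_diagonal]
  congr 1
  ext r
  split_ifs <;> simp

/-- Coordinates of lattice rows are operators of bounded order. -/
theorem entry_mem {w n : ℤ} {c : Row} (hc : c ∈ lat w n) (r : Fin 7) : c r ∈ fil w (n + 2) := by
  refine lat_induction (P := fun c : Row => c r ∈ fil w (n + 2)) (zero_mem _)
    (fun a b ha hb => add_mem ha hb) (fun g u hu => ?_) hc
  have key : gen g r ∈ fil (gw g) (gn g + 2) := by
    have h1 : ∀ {m : ℤ}, 0 ≤ m → (1 : Op) ∈ fil 0 m := fun h => Weyl.one_mem h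
    fin_cases g <;> fin_cases r <;>
      simp [gen, gw, gn, h1, Weyl.x_mem, Weyl.d_mem]
  have := Weyl.mul_mem hu key
  rwa [sub_add_cancel, show n - gn g + (gn g + 2) = n + 2 by omega] at this

theorem hom_entry_mem {s t : ℤ} {M : Mat} (hM : M ∈ hom s t) (r k : Fin 7) :
    M r k ∈ fil s (t + 2) := by
  have h := (mem_hom_iff.mp hM) ⟨r, by omega⟩
  have e : gen ⟨r, by omega⟩ ᵥ* M = M r := by
    fin_cases r <;> simp [gen, Matrix.row_apply', single_vecMul]
  have ew : gw ⟨r, by omega⟩ = 0 := by fin_cases r <;> rfl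
  have en : gn ⟨r, by omega⟩ ≤ 0 := by fin_cases r <;> simp [gn]
  rw [e, ew, zero_add] at h
  exact fil_mono (by omega) (entry_mem h k)

instance hom_finite (s t : ℤ) : Module.Finite ℂ (hom s t) := by
  have := Weyl.fil_finite s (t + 2)
  let S : Submodule ℂ Mat :=
    Submodule.pi Set.univ fun _ => Submodule.pi Set.univ fun _ => fil s (t + 2)
  have hS : S.FG := Submodule.fg_pi fun _ => Submodule.fg_pi fun _ => Module.Finite.iff_fg.mp this
  have : IsNoetherian ℂ S := isNoetherian_of_fg_of_noetherian _ hS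
  exact Module.Finite.iff_fg.mpr (isNoetherian_submodule.mp this (hom s t)
    fun M hM r _ k _ => hom_entry_mem hM r k)

end Vale.Agent.P195.Model
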