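import Vale.Agent.P195.Model.Envelope
import Vale.Agent.P195.Model.Maps
import Mathlib.LinearAlgebra.Trace

/-!
P195: the injective dimension of `V`, read from the resolution of the orbit module of degree `0`.
-/

noncomputable section

namespace Vale.Agent.P195.Model

open Matrix MvPolynomial Weyl CategoryTheory Abelian
open scoped TensorProduct

/-- The forms of degree `j - 1` are finite-dimensional. -/
instance Lm_finite : ∀ j : ℕ, Module.Finite ℂ (Lm j)
  | 0 => inferInstanceAs (Module.Finite ℂ (⊥ : Submodule ℂ Pol))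
  | j + 1 => Lp_finite j

/-- No extensions in degree four and above into `V`, from exactness of the cochains of `Q 0` with
values in `A` and the description of the top ones. -/
theorem hW_of_Q (hd₁ : (d1 0).comp (d2 0) = 0) (hd₂ : (d2 0).comp (d3 0) = 0)
    (deg₀ : ∀ φ : Q0 0 →ₗ[A] A, φ.comp (d1 0) = 0 → φ = 0)
    (deg₁ : ∀ φ : Q1 0 →ₗ[A] A, φ.comp (d2 0) = 0 → ∃ ψ : Q0 0 →ₗ[A] A, ψ.comp (d1 0) = φ)
    (deg₂ : ∀ φ : Q2 0 →ₗ[A] A, φ.comp (d3 0) = 0 → ∃ ψ : Q1 0 →ₗ[A] A, ψ.comp (d2 0) = φ)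
    (top : ∀ φ : Q3 0 →ₗ[A] A, (∃ ψ : Q2 0 →ₗ[A] A, ψ.comp (d3 0) = φ) ↔
      ∀ k : Fin 7, coeff 0 (bPart (φ (gE 0 ⊗ₜ[ℂ] one₀)) 0 k (1 : Pol)) = 0)
    (X : ModuleCat.{0} A) (n : ℕ) (hn : 4 ≤ n) : Subsingleton (Ext X Vm n) := by
  have : Module.Finite ℂ (Lp (0 + 1)) := Lp_finite _
  have : Module.Finite ℂ (Lm 0) := Lm_finite 0
  have : Module.Projective A (Q0 0) := Qm_projective 4
  have : Module.Projective A (Q1 0) := Qm_projective 3
  have : Module.Projective A (Qm 1 (Lm 0)) := Qm_projective 1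
  have : Module.Projective A (Qm 2 (Lp (0 + 1))) := Qm_projective 2
  have : Module.Projective A (Q3 0) := Qm_projective 0
  exact hW_of_cochains (gE 0 ⊗ₜ[ℂ] one₀) exists_hom_gE (d1 0) (d2 0) (d3 0) hd₁ hd₂ deg₀ deg₁ deg₂
    (fun φ => (socM_smul_eq_zero_iff _).trans (top φ).symm) X n hn

/-- The trace on forms of degree zero is the value at `1`. -/
theorem trace_Lp_zero (T : Lp 0 →ₗ[ℂ] Lp 0) :
    LinearMap.trace ℂ (Lp 0) T = coeff 0 (T one₀ : Pol) := by
  let e : Lp 0 ≃ₗ[ℂ] ℂ :=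
    { toFun := fun f => coeff 0 (f : Pol)
      map_add' := fun f g => by simp
      map_smul' := fun c f => by simp
      invFun := fun c => c • one₀
      left_inv := fun f => Subtype.ext <| by
        show coeff 0 (f : Pol) • (1 : Pol) = (f : Pol)
        rw [smul_eq_C_mul, mul_one, ← Lp_zero_eq f]
      right_inv := fun c => by
        show coeff 0 (c • (1 : Pol)) = c
        rw [coeff_smul, coeff_zero_one, smul_eq_mul, mul_one] }
  have h : ∀ f : Lp 0, f = coeff 0 (f : Pol) • one₀ := fun f => (e.left_inv f).symm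
  rw [← LinearMap.trace_conj' T e]
  have h1 : e.conj T = LinearMap.lsmul ℂ ℂ (coeff 0 (T one₀ : Pol)) := LinearMap.ext fun c => by
    show coeff 0 ((T (c • one₀) : Lp 0) : Pol) = coeff 0 (T one₀ : Pol) • c
    rw [map_smul, Submodule.coe_smul, coeff_smul, smul_eq_mul, smul_eq_mul, mul_comm]
  rw [h1, LinearMap.trace_eq_matrix_trace ℂ (Module.Basis.singleton (Fin 1) ℂ)]
  simp [Matrix.trace, LinearMap.toMatrix_apply]

end Vale.Agent.P195.Model
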