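import Vale.Agent.P195.Model.Maps
import Mathlib.RingTheory.Flat.Basic

/-!
P195: the identities of the resolution and of the translation lift as `A`-linear maps,
transferred from the operator identities in `Op ⊗ Pol`.
-/

noncomputable section

namespace Vale.Agent.P195.Model

open Matrix MvPolynomial Weyl
open scoped TensorProduct
open Maps (a E δ)

/-- The two parts of an element of `A`. -/
def bm : A →ₗ[ℂ] Mat × Mat := bPart.toLinearMap.prod mPart

theorem bm_injective : Function.Injective bm := fun _ _ h =>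
  ext_parts (congrArg Prod.fst h) (congrArg Prod.snd h)

variable {W W' W'' V : Type*} [AddCommGroup W] [Module ℂ W] [AddCommGroup W'] [Module ℂ W']
  [AddCommGroup W''] [Module ℂ W''] [AddCommGroup V] [Module ℂ V]

/-- An element of `Qm k W` read as matrices tensor the ambient multiplicities. -/
def inc (k : Fin 5) (ι : W →ₗ[ℂ] V) : Qm k W →ₗ[ℂ] (Mat × Mat) ⊗[ℂ] V :=
  TensorProduct.map (bm ∘ₗ ((col k).subtype.restrictScalars ℂ)) ι

theorem inc_injective {k : Fin 5} {ι : W →ₗ[ℂ] V} (hι : Function.Injective ι) :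
    Function.Injective (inc k ι) :=
  TensorProduct.map_injective_of_flat_flat _ _
    (bm_injective.comp Subtype.val_injective) hι

/-- Maps out of `A e_k ⊗ W` agree when they agree on generators. -/
theorem Qm_ext {k : Fin 5} {X : Type*} [AddCommGroup X] [Module A X] [Module ℂ X]
    [IsScalarTower ℂ A X] {f g : Qm k W →ₗ[A] X}
    (h : ∀ w, f (gE k ⊗ₜ[ℂ] w) = g (gE k ⊗ₜ[ℂ] w)) : f = g :=
  TensorProduct.AlgebraTensorModule.ext fun y w => by
    rw [← smul_gE y, ← TensorProduct.smul_tmul', map_smul, map_smul, h]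

/-- Two degree-zero steps on a generator. -/
theorem inc_BB {k l p : Fin 5} {M M' : Mat} {hM : M ∈ hom 0 0} {hs : Sup k l M}
    {hM' : M' ∈ hom 0 0} {hs' : Sup l p M'} (T : W →ₗ[ℂ] W') (T' : W' →ₗ[ℂ] W'')
    (ι : W'' →ₗ[ℂ] V) (w : W) :
    inc p ι (mqB hM' hs' T' (mqB hM hs T (gE k ⊗ₜ[ℂ] w)))
      = ((M * M', 0) : Mat × Mat) ⊗ₜ[ℂ] ι (T' (T w)) := by
  simp [inc, bm, mqB, rmul, gE, mPart_mul, hs.1]

/-- A degree-zero step followed by a translation step. -/
theorem inc_BN {k l p : Fin 5} {M M' : Mat} {hM : M ∈ hom 0 0} {hs : Sup k l M}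
    {hM' : M' ∈ hom 1 2} {hs' : Sup l p M'} (T : W →ₗ[ℂ] W') (T' : W' →ₗ[ℂ] W'')
    (ι : W'' →ₗ[ℂ] V) (w : W) :
    inc p ι (mqN hM' hs' T' (mqB hM hs T (gE k ⊗ₜ[ℂ] w)))
      = ((0, M * M') : Mat × Mat) ⊗ₜ[ℂ] ι (T' (T w)) := by
  simp [inc, bm, mqB, mqN, rmul, gE, mPart_mul, hs.1]

/-- A translation step followed by a degree-zero step. -/
theorem inc_NB {k l p : Fin 5} {M M' : Mat} {hM : M ∈ hom 1 2} {hs : Sup k l M}
    {hM' : M' ∈ hom 0 0} {hs' : Sup l p M'} (T : W →ₗ[ℂ] W') (T' : W' →ₗ[ℂ] W'')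
    (ι : W'' →ₗ[ℂ] V) (w : W) :
    inc p ι (mqB hM' hs' T' (mqN hM hs T (gE k ⊗ₜ[ℂ] w)))
      = ((0, M * M') : Mat × Mat) ⊗ₜ[ℂ] ι (T' (T w)) := by
  simp [inc, bm, mqB, mqN, rmul, gE, mPart_mul, hs.1]

/-- An operator at position `(r, s)` of the degree-zero part. -/
def ΦB (r s : Fin 7) (ι : Pol →ₗ[ℂ] V) : Maps.OT →ₗ[ℂ] (Mat × Mat) ⊗[ℂ] V :=
  TensorProduct.map (LinearMap.inl ℂ Mat Mat ∘ₗ Matrix.singleLinearMap ℂ r s) ι

@[simp] theorem ΦB_tmul (r s : Fin 7) (ι : Pol →ₗ[ℂ] V) (u : Op) (p : Pol) :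
    ΦB r s ι (u ⊗ₜ[ℂ] p) = ((single r s u, 0) : Mat × Mat) ⊗ₜ[ℂ] ι p := rfl

/-- An operator at position `(r, s)` of the translation part. -/
def ΦN (r s : Fin 7) (ι : Pol →ₗ[ℂ] V) : Maps.OT →ₗ[ℂ] (Mat × Mat) ⊗[ℂ] V :=
  TensorProduct.map (LinearMap.inr ℂ Mat Mat ∘ₗ Matrix.singleLinearMap ℂ r s) ι

@[simp] theorem ΦN_tmul (r s : Fin 7) (ι : Pol →ₗ[ℂ] V) (u : Op) (p : Pol) :
    ΦN r s ι (u ⊗ₜ[ℂ] p) = ((0, single r s u) : Mat × Mat) ⊗ₜ[ℂ] ι p := rfl

@[simp] theorem pr_inW (j : ℕ) (i k i' k' : Fin 2) (p : Lp j) :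
    pr j i k (inW j i' k' p) = if i = i' ∧ k = k' then p else 0 := by
  fin_cases i <;> fin_cases k <;> fin_cases i' <;> fin_cases k' <;> simp [pr, inW]

instance (V : Type*) [AddCommGroup V] [Module ℂ V] : AddCommGroup ((Mat × Mat) ⊗[ℂ] V) :=
  TensorProduct.addCommGroup

theorem pairB_add (M N : Mat) : ((M + N, 0) : Mat × Mat) = (M, 0) + (N, 0) := by simp

theorem pairB_sub (M N : Mat) : ((M - N, 0) : Mat × Mat) = (M, 0) - (N, 0) := by simp

theorem pairB_neg (M : Mat) : ((-M, 0) : Mat × Mat) = -(M, 0) := by simp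

theorem pairN_add (M N : Mat) : ((0, M + N) : Mat × Mat) = (0, M) + (0, N) := by simp

theorem pairN_sub (M N : Mat) : ((0, M - N) : Mat × Mat) = (0, M) - (0, N) := by simp

theorem pairN_neg (M : Mat) : ((0, -M) : Mat × Mat) = -(0, M) := by simp

theorem single_op_sub (r s : Fin 7) (u v : Op) :
    (single r s (u - v) : Mat) = single r s u - single r s v :=
  map_sub (Matrix.singleLinearMap ℂ r s) u v

theorem single_op_neg (r s : Fin 7) (u : Op) : (single r s (-u) : Mat) = -single r s u :=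
  map_neg (Matrix.singleLinearMap ℂ r s) u

theorem single_op_smul (r s : Fin 7) (z : ℂ) (u : Op) :
    (single r s (z • u) : Mat) = z • single r s u :=
  map_smul (Matrix.singleLinearMap ℂ r s) z u

theorem pair_zero : ((0, 0) : Mat × Mat) = 0 := rfl

theorem pairB_smul (z : ℂ) (M : Mat) : ((z • M, 0) : Mat × Mat) = z • (M, 0) := by simp

theorem pairN_smul (z : ℂ) (M : Mat) : ((0, z • M) : Mat × Mat) = z • (0, M) := by simp

theorem smul_tmul_pair (z : ℂ) (P : Mat × Mat) (v : V) :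
    (z • P) ⊗ₜ[ℂ] v = z • (P ⊗ₜ[ℂ] v) := (TensorProduct.smul_tmul' z P v).symm

theorem neg_mul_op (u v : Op) : -u * v = -(u * v) := neg_mul u v

theorem mul_neg_op (u v : Op) : u * -v = -(u * v) := mul_neg u v

theorem tmul_neg' (z : Mat × Mat) (v : V) : z ⊗ₜ[ℂ] (-v) = -(z ⊗ₜ[ℂ] v) :=
  TensorProduct.tmul_neg z v

theorem neg_tmul' (z : Mat × Mat) (v : V) : (-z) ⊗ₜ[ℂ] v = -(z ⊗ₜ[ℂ] v) :=
  TensorProduct.neg_tmul z v

theorem sub_tmul' (z z' : Mat × Mat) (v : V) : (z - z') ⊗ₜ[ℂ] v = z ⊗ₜ[ℂ] v - z' ⊗ₜ[ℂ] v :=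
  TensorProduct.sub_tmul z z' v

theorem mul_single_single (r s p q : Fin 7) (u v : Op) :
    (single r s u : Mat) * single p q v = if s = p then single r q (u * v) else 0 := by
  split_ifs with h
  · subst h
    simp
  · simp [h]

theorem single_mul_mX (r s : Fin 7) (u : Op) (v : Fin 5) (m : Fin 2) :
    (single r s u : Mat) * mX v m = if vx s = v then single r s (u * x m) else 0 := by
  ext p q
  simp only [mX, mul_diagonal, Matrix.single_apply]
  split_ifs <;> simp_all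

theorem mX_mul_single (r s : Fin 7) (u : Op) (v : Fin 5) (m : Fin 2) :
    mX v m * (single r s u : Mat) = if vx r = v then single r s (x m * u) else 0 := by
  ext p q
  simp only [mX, diagonal_mul, Matrix.single_apply]
  split_ifs <;> simp_all

/-- The inclusion of `W1` into four copies of `Pol`. -/
def ιW (j : ℕ) : W1 j →ₗ[ℂ] (Fin 2 → Fin 2 → Pol) :=
  LinearMap.pi fun i => LinearMap.pi fun k => (Lp j).subtype ∘ₗ pr j i k

theorem ιW_injective (j : ℕ) : Function.Injective (ιW j) := fun f g h =>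
  funext fun i => funext fun k => Subtype.ext (congrFun (congrFun h i) k)

/-- The coordinate inclusion of `Pol` into four copies. -/
def sngW (i k : Fin 2) : Pol →ₗ[ℂ] (Fin 2 → Fin 2 → Pol) :=
  LinearMap.single ℂ (fun _ : Fin 2 => Fin 2 → Pol) i ∘ₗ
    LinearMap.single ℂ (fun _ : Fin 2 => Pol) k

@[simp] theorem ιW_inW (j : ℕ) (i k : Fin 2) (p : Lp j) :
    ιW j (inW j i k p) = sngW i k (p : Pol) := by
  funext i' k'
  fin_cases i <;> fin_cases k <;> fin_cases i' <;> fin_cases k' <;> simp [ιW, pr, inW, sngW]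

theorem inc_W1_ext {l : Fin 5} {j : ℕ} {y z : Qm l (W1 j)}
    (h : ∀ i k, inc l ((Lp j).subtype ∘ₗ pr j i k) y = inc l ((Lp j).subtype ∘ₗ pr j i k) z) :
    y = z := by
  refine inc_injective (ιW_injective j) ?_
  have hι : ιW j = ∑ i, ∑ k, sngW i k ∘ₗ ((Lp j).subtype ∘ₗ pr j i k) := by
    refine LinearMap.ext fun f => funext fun i' => funext fun k' => ?_
    fin_cases i' <;> fin_cases k' <;> simp [ιW, sngW, Fin.sum_univ_two]
  have key : ∀ w, inc l (ιW j) w = ∑ i, ∑ k, TensorProduct.map (LinearMap.id : Mat × Mat →ₗ[ℂ] _)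
      (sngW i k) (inc l ((Lp j).subtype ∘ₗ pr j i k) w) := fun w => by
    induction w using TensorProduct.induction_on with
    | zero => simp
    | tmul g f => simp [inc, hι, TensorProduct.tmul_add]
    | add w w' h h' => simp only [map_add, h, h', Finset.sum_add_distrib]
  rw [key, key]
  exact Finset.sum_congr rfl fun i _ => Finset.sum_congr rfl fun k _ => by rw [h i k]

theorem Lp_homog {j : ℕ} (p : Lp j) : (p : Pol).IsHomogeneous j :=
  (mem_homogeneousSubmodule j (p : Pol)).mp p.2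

@[simp] theorem aT_coe (j : ℕ) (i k : Fin 2) (p : Lp j) : (aT j i k p : Pol) = a i k p := rfl

@[simp] theorem dT_coe (j : ℕ) (i : Fin 2) (p : Lp (j + 1)) : (dT j i p : Pol) = d i (p : Pol) :=
  rfl

@[simp] theorem dP_coe (j : ℕ) (i : Fin 2) (p : Lp j) : (dP j i p : Pol) = d i (p : Pol) := rfl

@[simp] theorem xT_coe (j : ℕ) (i : Fin 2) (p : Lp j) : (xT j i p : Pol) = x i (p : Pol) := rfl

@[simp] theorem xP_coe (j : ℕ) (i : Fin 2) (p : Lm j) : (xP j i p : Pol) = x i (p : Pol) := rfl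

theorem d1_d2m (j : ℕ) : (d1 j).comp (d2m j) = 0 := by
  refine Qm_ext fun q => inc_injective (ι := (Lp j).subtype) Subtype.val_injective ?_
  have h0 := congrArg (ΦB (sM 0) 6 LinearMap.id) (Maps.dd_minus (Lp_homog q) 0)
  have h1 := congrArg (ΦB (sM 1) 6 LinearMap.id) (Maps.dd_minus (Lp_homog q) 1)
  simp [d1, d2m, inc_BB, Maps.D1, Maps.D2m, mA, mJ, mBm, mUm, Fin.sum_univ_two, add_mul,
    δ, sM, sub_mul, neg_mul_op, Matrix.single_add, single_op_sub, single_op_neg, pairB_add,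
    pairB_sub, pairB_neg, TensorProduct.add_tmul, sub_tmul', neg_tmul', tmul_neg',
    TensorProduct.tmul_add, TensorProduct.tmul_smul, smul_neg, -Prod.mk_add_mk, -Prod.mk_sub_mk, -Prod.neg_mk, -Maps.x_apply,
    -Maps.d_apply] at h0 h1 ⊢
  linear_combination (norm := module) h0 + h1

set_option maxHeartbeats 800000 in
-- term by term comparison of tensors
theorem d1_d2p (j : ℕ) : (d1 j).comp (d2p j) = 0 := by
  refine Qm_ext fun t => inc_injective (ι := (Lp j).subtype) Subtype.val_injective ?_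
  rcases j with _ | j
  · have ht : t = 0 := Subtype.ext ((Submodule.mem_bot ℂ).mp t.2)
    simp [ht]
  · have hc : ((j + 1 : ℕ) : ℂ) + 1 = (j : ℂ) + 2 := by push_cast; ring
    have h0 := congrArg (ΦB (sP 0) 6 LinearMap.id) (Maps.dd_plus (Lp_homog (j := j) t) 0)
    have h1 := congrArg (ΦB (sP 1) 6 LinearMap.id) (Maps.dd_plus (Lp_homog (j := j) t) 1)
    simp only [d1, d2p, Fin.sum_univ_two, LinearMap.comp_apply, LinearMap.add_apply, map_add, inc_BB,
      LinearMap.zero_apply, map_zero]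
    simp [d1, d2p, cc, hc, inc_BB, Maps.D1, Maps.D2p, mA, mJ, mBp, mUp, Fin.sum_univ_two, add_mul,
      δ, sP, sub_mul, neg_mul_op, Matrix.single_add, single_op_sub, single_op_neg, pairB_add,
      pairB_sub, pairB_neg, TensorProduct.add_tmul, sub_tmul', neg_tmul', tmul_neg',
      TensorProduct.tmul_add, TensorProduct.tmul_smul, smul_neg, -Prod.mk_add_mk, -Prod.mk_sub_mk,
      -Prod.neg_mk, -Maps.x_apply, -Maps.d_apply] at h0 h1 ⊢
    linear_combination (norm := module) h0 + h1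

theorem d1_d2 (j : ℕ) : (d1 j).comp (d2 j) = 0 := by
  rw [d2, LinearMap.comp_coprod, d1_d2p, d1_d2m]
  exact LinearMap.ext fun z => by simp

set_option maxHeartbeats 1600000 in
-- term by term comparison of tensors
theorem d2_d3_00 (j : ℕ) (p : Lp j) :
    inc 3 ((Lp j).subtype ∘ₗ pr j 0 0)
        (((d2 j).comp (d3 j)) (gE 0 ⊗ₜ[ℂ] p)) =
      inc 3 ((Lp j).subtype ∘ₗ pr j 0 0)
        ((0 : Q3 j →ₗ[A] Q1 j) (gE 0 ⊗ₜ[ℂ] p)) := by
  have h := congrArg (ΦB 0 5 LinearMap.id) (Maps.dd_three (Lp_homog p) 0 0)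
  simp only [d2, d3, d2p, d2m, d3p, d3m, Fin.sum_univ_two, LinearMap.comp_apply,
    LinearMap.add_apply, map_add, inc_BB, inc_BN, inc_NB, LinearMap.coprod_apply, LinearMap.prod_apply,
    Function.prod_apply, LinearMap.smul_apply, map_smul, pr_inW, Fin.isValue, zero_ne_one, one_ne_zero, and_true,
    true_and, and_self, and_false, false_and, if_true, if_false, map_zero, ZeroMemClass.coe_zero,
    TensorProduct.tmul_zero, smul_zero, add_zero, zero_add, Fin.reduceFinMk, Fin.mk_zero, Fin.mk_one,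
    LinearMap.zero_apply]
  simp [d2, d3, d2p, d2m, d3p, d3m, cc, inc_BB, Maps.D2p, Maps.D2m, Maps.D3p,
    Maps.D3m, mBp, mBm, mGp, mGm, mUp, mUm, mVp, mVm, Fin.sum_univ_two, add_mul, mul_add, δ, sP, sM,
    mul_single_single, Maps.d_mul_x, Maps.a, sub_mul, mul_sub, pair_zero, Matrix.single_add, single_op_sub, pairB_add,
    pairB_sub, single_op_neg, pairB_neg, neg_tmul', mul_neg_op, neg_mul_op, single_op_smul, pairB_smul,
    smul_tmul_pair, smul_neg, TensorProduct.add_tmul, sub_tmul', TensorProduct.tmul_add, TensorProduct.tmul_smul,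
    tmul_neg', -Prod.mk_add_mk, -Prod.mk_sub_mk, -Prod.neg_mk, -Prod.smul_mk,
    -Matrix.smul_single,
    -Maps.x_apply, -Maps.d_apply] at h ⊢
  linear_combination (norm := module) h

set_option maxHeartbeats 1600000 in
-- term by term comparison of tensors
theorem d2_d3_01 (j : ℕ) (p : Lp j) :
    inc 3 ((Lp j).subtype ∘ₗ pr j 0 1)
        (((d2 j).comp (d3 j)) (gE 0 ⊗ₜ[ℂ] p)) =
      inc 3 ((Lp j).subtype ∘ₗ pr j 0 1)
        ((0 : Q3 j →ₗ[A] Q1 j) (gE 0 ⊗ₜ[ℂ] p)) := by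
  have h := congrArg (ΦB 0 5 LinearMap.id) (Maps.dd_three (Lp_homog p) 0 1)
  simp only [d2, d3, d2p, d2m, d3p, d3m, Fin.sum_univ_two, LinearMap.comp_apply,
    LinearMap.add_apply, map_add, inc_BB, inc_BN, inc_NB, LinearMap.coprod_apply, LinearMap.prod_apply,
    Function.prod_apply, LinearMap.smul_apply, map_smul, pr_inW, Fin.isValue, zero_ne_one, one_ne_zero, and_true,
    true_and, and_self, and_false, false_and, if_true, if_false, map_zero, ZeroMemClass.coe_zero,
    TensorProduct.tmul_zero, smul_zero, add_zero, zero_add, Fin.reduceFinMk, Fin.mk_zero, Fin.mk_one,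
    LinearMap.zero_apply]
  simp [d2, d3, d2p, d2m, d3p, d3m, cc, inc_BB, Maps.D2p, Maps.D2m, Maps.D3p,
    Maps.D3m, mBp, mBm, mGp, mGm, mUp, mUm, mVp, mVm, Fin.sum_univ_two, add_mul, mul_add, δ, sP, sM,
    mul_single_single, Maps.d_mul_x, Maps.a, sub_mul, mul_sub, pair_zero, Matrix.single_add, single_op_sub, pairB_add,
    pairB_sub, single_op_neg, pairB_neg, neg_tmul', mul_neg_op, neg_mul_op, single_op_smul, pairB_smul,
    smul_tmul_pair, smul_neg, TensorProduct.add_tmul, sub_tmul', TensorProduct.tmul_add, TensorProduct.tmul_smul,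
    tmul_neg', -Prod.mk_add_mk, -Prod.mk_sub_mk, -Prod.neg_mk, -Prod.smul_mk,
    -Matrix.smul_single,
    -Maps.x_apply, -Maps.d_apply] at h ⊢
  linear_combination (norm := module) h

set_option maxHeartbeats 1600000 in
-- term by term comparison of tensors
theorem d2_d3_10 (j : ℕ) (p : Lp j) :
    inc 3 ((Lp j).subtype ∘ₗ pr j 1 0)
        (((d2 j).comp (d3 j)) (gE 0 ⊗ₜ[ℂ] p)) =
      inc 3 ((Lp j).subtype ∘ₗ pr j 1 0)
        ((0 : Q3 j →ₗ[A] Q1 j) (gE 0 ⊗ₜ[ℂ] p)) := by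
  have h := congrArg (ΦB 0 5 LinearMap.id) (Maps.dd_three (Lp_homog p) 1 0)
  simp only [d2, d3, d2p, d2m, d3p, d3m, Fin.sum_univ_two, LinearMap.comp_apply,
    LinearMap.add_apply, map_add, inc_BB, inc_BN, inc_NB, LinearMap.coprod_apply, LinearMap.prod_apply,
    Function.prod_apply, LinearMap.smul_apply, map_smul, pr_inW, Fin.isValue, zero_ne_one, one_ne_zero, and_true,
    true_and, and_self, and_false, false_and, if_true, if_false, map_zero, ZeroMemClass.coe_zero,
    TensorProduct.tmul_zero, smul_zero, add_zero, zero_add, Fin.reduceFinMk, Fin.mk_zero, Fin.mk_one,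
    LinearMap.zero_apply]
  simp [d2, d3, d2p, d2m, d3p, d3m, cc, inc_BB, Maps.D2p, Maps.D2m, Maps.D3p,
    Maps.D3m, mBp, mBm, mGp, mGm, mUp, mUm, mVp, mVm, Fin.sum_univ_two, add_mul, mul_add, δ, sP, sM,
    mul_single_single, Maps.d_mul_x, Maps.a, sub_mul, mul_sub, pair_zero, Matrix.single_add, single_op_sub, pairB_add,
    pairB_sub, single_op_neg, pairB_neg, neg_tmul', mul_neg_op, neg_mul_op, single_op_smul, pairB_smul,
    smul_tmul_pair, smul_neg, TensorProduct.add_tmul, sub_tmul', TensorProduct.tmul_add, TensorProduct.tmul_smul,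
    tmul_neg', -Prod.mk_add_mk, -Prod.mk_sub_mk, -Prod.neg_mk, -Prod.smul_mk,
    -Matrix.smul_single,
    -Maps.x_apply, -Maps.d_apply] at h ⊢
  linear_combination (norm := module) h

set_option maxHeartbeats 1600000 in
-- term by term comparison of tensors
theorem d2_d3_11 (j : ℕ) (p : Lp j) :
    inc 3 ((Lp j).subtype ∘ₗ pr j 1 1)
        (((d2 j).comp (d3 j)) (gE 0 ⊗ₜ[ℂ] p)) =
      inc 3 ((Lp j).subtype ∘ₗ pr j 1 1)
        ((0 : Q3 j →ₗ[A] Q1 j) (gE 0 ⊗ₜ[ℂ] p)) := by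
  have h := congrArg (ΦB 0 5 LinearMap.id) (Maps.dd_three (Lp_homog p) 1 1)
  simp only [d2, d3, d2p, d2m, d3p, d3m, Fin.sum_univ_two, LinearMap.comp_apply,
    LinearMap.add_apply, map_add, inc_BB, inc_BN, inc_NB, LinearMap.coprod_apply, LinearMap.prod_apply,
    Function.prod_apply, LinearMap.smul_apply, map_smul, pr_inW, Fin.isValue, zero_ne_one, one_ne_zero, and_true,
    true_and, and_self, and_false, false_and, if_true, if_false, map_zero, ZeroMemClass.coe_zero,
    TensorProduct.tmul_zero, smul_zero, add_zero, zero_add, Fin.reduceFinMk, Fin.mk_zero, Fin.mk_one,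
    LinearMap.zero_apply]
  simp [d2, d3, d2p, d2m, d3p, d3m, cc, inc_BB, Maps.D2p, Maps.D2m, Maps.D3p,
    Maps.D3m, mBp, mBm, mGp, mGm, mUp, mUm, mVp, mVm, Fin.sum_univ_two, add_mul, mul_add, δ, sP, sM,
    mul_single_single, Maps.d_mul_x, Maps.a, sub_mul, mul_sub, pair_zero, Matrix.single_add, single_op_sub, pairB_add,
    pairB_sub, single_op_neg, pairB_neg, neg_tmul', mul_neg_op, neg_mul_op, single_op_smul, pairB_smul,
    smul_tmul_pair, smul_neg, TensorProduct.add_tmul, sub_tmul', TensorProduct.tmul_add, TensorProduct.tmul_smul,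
    tmul_neg', -Prod.mk_add_mk, -Prod.mk_sub_mk, -Prod.neg_mk, -Prod.smul_mk,
    -Matrix.smul_single,
    -Maps.x_apply, -Maps.d_apply] at h ⊢
  linear_combination (norm := module) h

theorem d2_d3 (j : ℕ) : (d2 j).comp (d3 j) = 0 := by
  refine Qm_ext fun p => inc_W1_ext fun i k => ?_
  fin_cases i <;> fin_cases k
  · exact d2_d3_00 j p
  · exact d2_d3_01 j p
  · exact d2_d3_10 j p
  · exact d2_d3_11 j p


@[simp] theorem pr_dW (j : ℕ) (m i k : Fin 2) (f : W1 (j + 1)) :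
    pr j i k (dW j m f) = dT j m (pr (j + 1) i k f) := rfl

theorem cc_succ (j : ℕ) : cc (j + 1) = cc j + 1 := by simp [cc]

theorem lift_d1 (j : ℕ) : (m0 j).comp (d1 (j + 1)) = (d1 j).comp (m1 j) := by
  refine Qm_ext fun w => inc_injective (ι := (Lp j).subtype) Subtype.val_injective ?_
  have h00 := congrArg (ΦN 5 6 LinearMap.id) (Maps.lift_one (cc j) 0 0 (pr (j + 1) 0 0 w))
  have h01 := congrArg (ΦN 5 6 LinearMap.id) (Maps.lift_one (cc j) 0 1 (pr (j + 1) 0 1 w))
  have h10 := congrArg (ΦN 5 6 LinearMap.id) (Maps.lift_one (cc j) 1 0 (pr (j + 1) 1 0 w))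
  have h11 := congrArg (ΦN 5 6 LinearMap.id) (Maps.lift_one (cc j) 1 1 (pr (j + 1) 1 1 w))
  simp [d1, m0, m1, inc_BN, inc_NB, Maps.D1, Maps.P1, Maps.T, mA, mJ, Fin.sum_univ_two,
    single_mul_mX, mX_mul_single, vx, sub_tmul', TensorProduct.tmul_add, TensorProduct.tmul_smul,
    tmul_neg', smul_neg, smul_add, -Maps.x_apply, -Maps.d_apply] at h00 h01 h10 h11 ⊢
  linear_combination (norm := module) h00 + h01 + h10 + h11

set_option maxHeartbeats 3200000 in
-- term by term comparison of tensors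
theorem lift_d2m_00 (j : ℕ) (q : Lp (j + 1 + 1)) :
    inc 3 ((Lp j).subtype ∘ₗ pr j 0 0)
        (((m1 j).comp (d2m (j + 1))) (gE 2 ⊗ₜ[ℂ] q)) =
      inc 3 ((Lp j).subtype ∘ₗ pr j 0 0)
        (((d2m j).comp (m2mm j)) (gE 2 ⊗ₜ[ℂ] q)) := by
  have h0 := congrArg (ΦN (sM 0) 5 LinearMap.id) (Maps.lift_two_minus (cc j) 0 0 0 q)
  have h1 := congrArg (ΦN (sM 1) 5 LinearMap.id) (Maps.lift_two_minus (cc j) 0 0 1 q)
  simp only [d2m, m1, m2mm, Fin.sum_univ_two, LinearMap.comp_apply,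
    LinearMap.add_apply, map_add, inc_BB, inc_BN, inc_NB, LinearMap.coprod_apply, LinearMap.prod_apply,
    Function.prod_apply, LinearMap.smul_apply, map_smul, pr_inW, pr_dW, Fin.isValue, zero_ne_one, one_ne_zero, and_true,
    true_and, and_self, and_false, false_and, if_true, if_false, map_zero, ZeroMemClass.coe_zero,
    TensorProduct.tmul_zero, smul_zero, add_zero, zero_add, Fin.reduceFinMk, Fin.mk_zero, Fin.mk_one,
    LinearMap.zero_apply]
  simp [d2m, m1, m2mm, cc_succ, inc_BN, inc_NB, Maps.D2m, Maps.P1, Maps.Pmm, Maps.T, mBm, mUm, mC,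
    Fin.sum_univ_two, add_mul, mul_add, sub_mul, mul_sub, δ, sM, mul_single_single, single_mul_mX,
    mX_mul_single, vx, Matrix.single_add, single_op_sub, single_op_neg, single_op_smul, pairN_add,
    pairN_sub, pairN_neg, pairN_smul, pair_zero, smul_tmul_pair, neg_tmul', sub_tmul', tmul_neg',
    mul_neg_op, neg_mul_op, smul_neg, smul_add, TensorProduct.add_tmul, TensorProduct.tmul_add,
    TensorProduct.tmul_smul, -Prod.mk_add_mk, -Prod.mk_sub_mk, -Prod.neg_mk, -Prod.smul_mk,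
    -Matrix.smul_single, -Maps.x_apply, -Maps.d_apply] at h0 h1 ⊢
  linear_combination (norm := module) h0 + h1

set_option maxHeartbeats 3200000 in
-- term by term comparison of tensors
theorem lift_d2m_01 (j : ℕ) (q : Lp (j + 1 + 1)) :
    inc 3 ((Lp j).subtype ∘ₗ pr j 0 1)
        (((m1 j).comp (d2m (j + 1))) (gE 2 ⊗ₜ[ℂ] q)) =
      inc 3 ((Lp j).subtype ∘ₗ pr j 0 1)
        (((d2m j).comp (m2mm j)) (gE 2 ⊗ₜ[ℂ] q)) := by
  have h0 := congrArg (ΦN (sM 0) 5 LinearMap.id) (Maps.lift_two_minus (cc j) 0 1 0 q)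
  have h1 := congrArg (ΦN (sM 1) 5 LinearMap.id) (Maps.lift_two_minus (cc j) 0 1 1 q)
  simp only [d2m, m1, m2mm, Fin.sum_univ_two, LinearMap.comp_apply,
    LinearMap.add_apply, map_add, inc_BB, inc_BN, inc_NB, LinearMap.coprod_apply, LinearMap.prod_apply,
    Function.prod_apply, LinearMap.smul_apply, map_smul, pr_inW, pr_dW, Fin.isValue, zero_ne_one, one_ne_zero, and_true,
    true_and, and_self, and_false, false_and, if_true, if_false, map_zero, ZeroMemClass.coe_zero,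
    TensorProduct.tmul_zero, smul_zero, add_zero, zero_add, Fin.reduceFinMk, Fin.mk_zero, Fin.mk_one,
    LinearMap.zero_apply]
  simp [d2m, m1, m2mm, cc_succ, inc_BN, inc_NB, Maps.D2m, Maps.P1, Maps.Pmm, Maps.T, mBm, mUm, mC,
    Fin.sum_univ_two, add_mul, mul_add, sub_mul, mul_sub, δ, sM, mul_single_single, single_mul_mX,
    mX_mul_single, vx, Matrix.single_add, single_op_sub, single_op_neg, single_op_smul, pairN_add,
    pairN_sub, pairN_neg, pairN_smul, pair_zero, smul_tmul_pair, neg_tmul', sub_tmul', tmul_neg',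
    mul_neg_op, neg_mul_op, smul_neg, smul_add, TensorProduct.add_tmul, TensorProduct.tmul_add,
    TensorProduct.tmul_smul, -Prod.mk_add_mk, -Prod.mk_sub_mk, -Prod.neg_mk, -Prod.smul_mk,
    -Matrix.smul_single, -Maps.x_apply, -Maps.d_apply] at h0 h1 ⊢
  linear_combination (norm := module) h0 + h1

set_option maxHeartbeats 3200000 in
-- term by term comparison of tensors
theorem lift_d2m_10 (j : ℕ) (q : Lp (j + 1 + 1)) :
    inc 3 ((Lp j).subtype ∘ₗ pr j 1 0)
        (((m1 j).comp (d2m (j + 1))) (gE 2 ⊗ₜ[ℂ] q)) =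
      inc 3 ((Lp j).subtype ∘ₗ pr j 1 0)
        (((d2m j).comp (m2mm j)) (gE 2 ⊗ₜ[ℂ] q)) := by
  have h0 := congrArg (ΦN (sM 0) 5 LinearMap.id) (Maps.lift_two_minus (cc j) 1 0 0 q)
  have h1 := congrArg (ΦN (sM 1) 5 LinearMap.id) (Maps.lift_two_minus (cc j) 1 0 1 q)
  simp only [d2m, m1, m2mm, Fin.sum_univ_two, LinearMap.comp_apply,
    LinearMap.add_apply, map_add, inc_BB, inc_BN, inc_NB, LinearMap.coprod_apply, LinearMap.prod_apply,
    Function.prod_apply, LinearMap.smul_apply, map_smul, pr_inW, pr_dW, Fin.isValue, zero_ne_one, one_ne_zero, and_true,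
    true_and, and_self, and_false, false_and, if_true, if_false, map_zero, ZeroMemClass.coe_zero,
    TensorProduct.tmul_zero, smul_zero, add_zero, zero_add, Fin.reduceFinMk, Fin.mk_zero, Fin.mk_one,
    LinearMap.zero_apply]
  simp [d2m, m1, m2mm, cc_succ, inc_BN, inc_NB, Maps.D2m, Maps.P1, Maps.Pmm, Maps.T, mBm, mUm, mC,
    Fin.sum_univ_two, add_mul, mul_add, sub_mul, mul_sub, δ, sM, mul_single_single, single_mul_mX,
    mX_mul_single, vx, Matrix.single_add, single_op_sub, single_op_neg, single_op_smul, pairN_add,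
    pairN_sub, pairN_neg, pairN_smul, pair_zero, smul_tmul_pair, neg_tmul', sub_tmul', tmul_neg',
    mul_neg_op, neg_mul_op, smul_neg, smul_add, TensorProduct.add_tmul, TensorProduct.tmul_add,
    TensorProduct.tmul_smul, -Prod.mk_add_mk, -Prod.mk_sub_mk, -Prod.neg_mk, -Prod.smul_mk,
    -Matrix.smul_single, -Maps.x_apply, -Maps.d_apply] at h0 h1 ⊢
  linear_combination (norm := module) h0 + h1

set_option maxHeartbeats 3200000 in
-- term by term comparison of tensors
theorem lift_d2m_11 (j : ℕ) (q : Lp (j + 1 + 1)) :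
    inc 3 ((Lp j).subtype ∘ₗ pr j 1 1)
        (((m1 j).comp (d2m (j + 1))) (gE 2 ⊗ₜ[ℂ] q)) =
      inc 3 ((Lp j).subtype ∘ₗ pr j 1 1)
        (((d2m j).comp (m2mm j)) (gE 2 ⊗ₜ[ℂ] q)) := by
  have h0 := congrArg (ΦN (sM 0) 5 LinearMap.id) (Maps.lift_two_minus (cc j) 1 1 0 q)
  have h1 := congrArg (ΦN (sM 1) 5 LinearMap.id) (Maps.lift_two_minus (cc j) 1 1 1 q)
  simp only [d2m, m1, m2mm, Fin.sum_univ_two, LinearMap.comp_apply,
    LinearMap.add_apply, map_add, inc_BB, inc_BN, inc_NB, LinearMap.coprod_apply, LinearMap.prod_apply,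
    Function.prod_apply, LinearMap.smul_apply, map_smul, pr_inW, pr_dW, Fin.isValue, zero_ne_one, one_ne_zero, and_true,
    true_and, and_self, and_false, false_and, if_true, if_false, map_zero, ZeroMemClass.coe_zero,
    TensorProduct.tmul_zero, smul_zero, add_zero, zero_add, Fin.reduceFinMk, Fin.mk_zero, Fin.mk_one,
    LinearMap.zero_apply]
  simp [d2m, m1, m2mm, cc_succ, inc_BN, inc_NB, Maps.D2m, Maps.P1, Maps.Pmm, Maps.T, mBm, mUm, mC,
    Fin.sum_univ_two, add_mul, mul_add, sub_mul, mul_sub, δ, sM, mul_single_single, single_mul_mX,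
    mX_mul_single, vx, Matrix.single_add, single_op_sub, single_op_neg, single_op_smul, pairN_add,
    pairN_sub, pairN_neg, pairN_smul, pair_zero, smul_tmul_pair, neg_tmul', sub_tmul', tmul_neg',
    mul_neg_op, neg_mul_op, smul_neg, smul_add, TensorProduct.add_tmul, TensorProduct.tmul_add,
    TensorProduct.tmul_smul, -Prod.mk_add_mk, -Prod.mk_sub_mk, -Prod.neg_mk, -Prod.smul_mk,
    -Matrix.smul_single, -Maps.x_apply, -Maps.d_apply] at h0 h1 ⊢
  linear_combination (norm := module) h0 + h1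

theorem lift_d2m (j : ℕ) : (m1 j).comp (d2m (j + 1)) = (d2m j).comp (m2mm j) := by
  refine Qm_ext fun q => inc_W1_ext fun i k => ?_
  fin_cases i <;> fin_cases k
  · exact lift_d2m_00 j q
  · exact lift_d2m_01 j q
  · exact lift_d2m_10 j q
  · exact lift_d2m_11 j q


theorem E_Lp {j : ℕ} (p : Lp j) : Maps.E (p : Pol) = ((j : ℂ)) • (p : Pol) :=
  Maps.euler_op (Lp_homog p)

/-- `∂ i` between the forms two and one degree below `j + 1`. -/
def dPm (j : ℕ) (i : Fin 2) : Lm (j + 1) →ₗ[ℂ] Lm j := dP j i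

@[simp] theorem dPm_coe (j : ℕ) (i : Fin 2) (p : Lm (j + 1)) :
    (dPm j i p : Pol) = d i (p : Pol) := rfl

theorem m2pp_eq (j : ℕ) : m2pp j =
    ∑ m, mqN (hom_X 1 m) (sup_X 1 m) ((cc j * (cc j + 1)) • dPm j m) := rfl

/-- `x i` from the forms two degrees below `j + 2`. -/
def xM (j : ℕ) (i : Fin 2) : Lm (j + 1) →ₗ[ℂ] Lp (j + 1) := xT j i

@[simp] theorem xM_coe (j : ℕ) (i : Fin 2) (p : Lm (j + 1)) :
    (xM j i p : Pol) = x i (p : Pol) := rfl

theorem m2pm_eq (j : ℕ) : m2pm j =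
    ∑ m, (mqN (hom_F m) (sup_F m) (xM j m) + mqN (hom_H m) (sup_H m) ((cc j - 1) • xM j m)
      + mqN (hom_K m) (sup_K m) (xM j m)) := rfl

set_option maxHeartbeats 6400000 in
-- term by term comparison of tensors
theorem lift_d2p_00 (j : ℕ) (t : Lm (j + 1)) :
    inc 3 ((Lp j).subtype ∘ₗ pr j 0 0)
        (((m1 j).comp (d2p (j + 1))) (gE 1 ⊗ₜ[ℂ] t)) =
      inc 3 ((Lp j).subtype ∘ₗ pr j 0 0)
        (((d2p j).comp (m2pp j) + (d2m j).comp (m2pm j)) (gE 1 ⊗ₜ[ℂ] t)) := by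
  have ht : Maps.E (t : Pol) = (cc j - 1) • (t : Pol) := by
    simpa [cc] using E_Lp (j := j) t
  have h0 := congrArg (ΦN (sP 0) 5 LinearMap.id) (Maps.lift_two_plus (cc j) 0 0 0 t ht)
  have h1 := congrArg (ΦN (sP 1) 5 LinearMap.id) (Maps.lift_two_plus (cc j) 0 0 1 t ht)
  simp only [d2p, d2m, m1, m2pp_eq, m2pm_eq, Fin.sum_univ_two, LinearMap.comp_apply,
    LinearMap.add_apply, map_add, inc_BB, inc_BN, inc_NB, LinearMap.coprod_apply, LinearMap.prod_apply,
    Function.prod_apply, LinearMap.smul_apply, map_smul, pr_inW, pr_dW, Fin.isValue, zero_ne_one, one_ne_zero, and_true,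
    true_and, and_self, and_false, false_and, if_true, if_false, map_zero, ZeroMemClass.coe_zero,
    TensorProduct.tmul_zero, smul_zero, add_zero, zero_add, Fin.reduceFinMk, Fin.mk_zero, Fin.mk_one,
    LinearMap.zero_apply]
  simp [d2p, d2m, m1, m2pp_eq, m2pm_eq, cc, Nat.cast_add, Nat.cast_one, inc_BN, inc_NB, Maps.D2p, Maps.D2m, Maps.P1, Maps.Ppp,
    Maps.Ppm, Maps.T, mBp, mUp, mBm, mUm, mF, mH, mK,
    Fin.sum_univ_two, add_mul, mul_add, sub_mul, mul_sub, δ, sP, sM, mul_single_single, single_mul_mX,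
    mX_mul_single, vx, Matrix.single_add, single_op_sub, single_op_neg, single_op_smul, pairN_add,
    pairN_sub, pairN_neg, pairN_smul, pair_zero, smul_tmul_pair, neg_tmul', sub_tmul', tmul_neg',
    mul_neg_op, neg_mul_op, mul_assoc, Maps.d_x_apply, Maps.x_comm, smul_neg, smul_add, TensorProduct.add_tmul, TensorProduct.tmul_add,
    TensorProduct.tmul_smul, -Prod.mk_add_mk, -Prod.mk_sub_mk, -Prod.neg_mk, -Prod.smul_mk,
    -Matrix.smul_single, -Maps.x_apply, -Maps.d_apply] at h0 h1 ⊢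
  linear_combination (norm := module) h0 + h1

set_option maxHeartbeats 6400000 in
-- term by term comparison of tensors
theorem lift_d2p_01 (j : ℕ) (t : Lm (j + 1)) :
    inc 3 ((Lp j).subtype ∘ₗ pr j 0 1)
        (((m1 j).comp (d2p (j + 1))) (gE 1 ⊗ₜ[ℂ] t)) =
      inc 3 ((Lp j).subtype ∘ₗ pr j 0 1)
        (((d2p j).comp (m2pp j) + (d2m j).comp (m2pm j)) (gE 1 ⊗ₜ[ℂ] t)) := by
  have ht : Maps.E (t : Pol) = (cc j - 1) • (t : Pol) := by
    simpa [cc] using E_Lp (j := j) t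
  have h0 := congrArg (ΦN (sP 0) 5 LinearMap.id) (Maps.lift_two_plus (cc j) 0 1 0 t ht)
  have h1 := congrArg (ΦN (sP 1) 5 LinearMap.id) (Maps.lift_two_plus (cc j) 0 1 1 t ht)
  simp only [d2p, d2m, m1, m2pp_eq, m2pm_eq, Fin.sum_univ_two, LinearMap.comp_apply,
    LinearMap.add_apply, map_add, inc_BB, inc_BN, inc_NB, LinearMap.coprod_apply, LinearMap.prod_apply,
    Function.prod_apply, LinearMap.smul_apply, map_smul, pr_inW, pr_dW, Fin.isValue, zero_ne_one, one_ne_zero, and_true,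
    true_and, and_self, and_false, false_and, if_true, if_false, map_zero, ZeroMemClass.coe_zero,
    TensorProduct.tmul_zero, smul_zero, add_zero, zero_add, Fin.reduceFinMk, Fin.mk_zero, Fin.mk_one,
    LinearMap.zero_apply]
  simp [d2p, d2m, m1, m2pp_eq, m2pm_eq, cc, Nat.cast_add, Nat.cast_one, inc_BN, inc_NB, Maps.D2p, Maps.D2m, Maps.P1, Maps.Ppp,
    Maps.Ppm, Maps.T, mBp, mUp, mBm, mUm, mF, mH, mK,
    Fin.sum_univ_two, add_mul, mul_add, sub_mul, mul_sub, δ, sP, sM, mul_single_single, single_mul_mX,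
    mX_mul_single, vx, Matrix.single_add, single_op_sub, single_op_neg, single_op_smul, pairN_add,
    pairN_sub, pairN_neg, pairN_smul, pair_zero, smul_tmul_pair, neg_tmul', sub_tmul', tmul_neg',
    mul_neg_op, neg_mul_op, mul_assoc, Maps.d_x_apply, Maps.x_comm, smul_neg, smul_add, TensorProduct.add_tmul, TensorProduct.tmul_add,
    TensorProduct.tmul_smul, -Prod.mk_add_mk, -Prod.mk_sub_mk, -Prod.neg_mk, -Prod.smul_mk,
    -Matrix.smul_single, -Maps.x_apply, -Maps.d_apply] at h0 h1 ⊢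
  linear_combination (norm := module) h0 + h1

set_option maxHeartbeats 6400000 in
-- term by term comparison of tensors
theorem lift_d2p_10 (j : ℕ) (t : Lm (j + 1)) :
    inc 3 ((Lp j).subtype ∘ₗ pr j 1 0)
        (((m1 j).comp (d2p (j + 1))) (gE 1 ⊗ₜ[ℂ] t)) =
      inc 3 ((Lp j).subtype ∘ₗ pr j 1 0)
        (((d2p j).comp (m2pp j) + (d2m j).comp (m2pm j)) (gE 1 ⊗ₜ[ℂ] t)) := by
  have ht : Maps.E (t : Pol) = (cc j - 1) • (t : Pol) := by
    simpa [cc] using E_Lp (j := j) t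
  have h0 := congrArg (ΦN (sP 0) 5 LinearMap.id) (Maps.lift_two_plus (cc j) 1 0 0 t ht)
  have h1 := congrArg (ΦN (sP 1) 5 LinearMap.id) (Maps.lift_two_plus (cc j) 1 0 1 t ht)
  simp only [d2p, d2m, m1, m2pp_eq, m2pm_eq, Fin.sum_univ_two, LinearMap.comp_apply,
    LinearMap.add_apply, map_add, inc_BB, inc_BN, inc_NB, LinearMap.coprod_apply, LinearMap.prod_apply,
    Function.prod_apply, LinearMap.smul_apply, map_smul, pr_inW, pr_dW, Fin.isValue, zero_ne_one, one_ne_zero, and_true,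
    true_and, and_self, and_false, false_and, if_true, if_false, map_zero, ZeroMemClass.coe_zero,
    TensorProduct.tmul_zero, smul_zero, add_zero, zero_add, Fin.reduceFinMk, Fin.mk_zero, Fin.mk_one,
    LinearMap.zero_apply]
  simp [d2p, d2m, m1, m2pp_eq, m2pm_eq, cc, Nat.cast_add, Nat.cast_one, inc_BN, inc_NB, Maps.D2p, Maps.D2m, Maps.P1, Maps.Ppp,
    Maps.Ppm, Maps.T, mBp, mUp, mBm, mUm, mF, mH, mK,
    Fin.sum_univ_two, add_mul, mul_add, sub_mul, mul_sub, δ, sP, sM, mul_single_single, single_mul_mX,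
    mX_mul_single, vx, Matrix.single_add, single_op_sub, single_op_neg, single_op_smul, pairN_add,
    pairN_sub, pairN_neg, pairN_smul, pair_zero, smul_tmul_pair, neg_tmul', sub_tmul', tmul_neg',
    mul_neg_op, neg_mul_op, mul_assoc, Maps.d_x_apply, Maps.x_comm, smul_neg, smul_add, TensorProduct.add_tmul, TensorProduct.tmul_add,
    TensorProduct.tmul_smul, -Prod.mk_add_mk, -Prod.mk_sub_mk, -Prod.neg_mk, -Prod.smul_mk,
    -Matrix.smul_single, -Maps.x_apply, -Maps.d_apply] at h0 h1 ⊢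
  linear_combination (norm := module) h0 + h1

set_option maxHeartbeats 6400000 in
-- term by term comparison of tensors
theorem lift_d2p_11 (j : ℕ) (t : Lm (j + 1)) :
    inc 3 ((Lp j).subtype ∘ₗ pr j 1 1)
        (((m1 j).comp (d2p (j + 1))) (gE 1 ⊗ₜ[ℂ] t)) =
      inc 3 ((Lp j).subtype ∘ₗ pr j 1 1)
        (((d2p j).comp (m2pp j) + (d2m j).comp (m2pm j)) (gE 1 ⊗ₜ[ℂ] t)) := by
  have ht : Maps.E (t : Pol) = (cc j - 1) • (t : Pol) := by
    simpa [cc] using E_Lp (j := j) t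
  have h0 := congrArg (ΦN (sP 0) 5 LinearMap.id) (Maps.lift_two_plus (cc j) 1 1 0 t ht)
  have h1 := congrArg (ΦN (sP 1) 5 LinearMap.id) (Maps.lift_two_plus (cc j) 1 1 1 t ht)
  simp only [d2p, d2m, m1, m2pp_eq, m2pm_eq, Fin.sum_univ_two, LinearMap.comp_apply,
    LinearMap.add_apply, map_add, inc_BB, inc_BN, inc_NB, LinearMap.coprod_apply, LinearMap.prod_apply,
    Function.prod_apply, LinearMap.smul_apply, map_smul, pr_inW, pr_dW, Fin.isValue, zero_ne_one, one_ne_zero, and_true,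
    true_and, and_self, and_false, false_and, if_true, if_false, map_zero, ZeroMemClass.coe_zero,
    TensorProduct.tmul_zero, smul_zero, add_zero, zero_add, Fin.reduceFinMk, Fin.mk_zero, Fin.mk_one,
    LinearMap.zero_apply]
  simp [d2p, d2m, m1, m2pp_eq, m2pm_eq, cc, Nat.cast_add, Nat.cast_one, inc_BN, inc_NB, Maps.D2p, Maps.D2m, Maps.P1, Maps.Ppp,
    Maps.Ppm, Maps.T, mBp, mUp, mBm, mUm, mF, mH, mK,
    Fin.sum_univ_two, add_mul, mul_add, sub_mul, mul_sub, δ, sP, sM, mul_single_single, single_mul_mX,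
    mX_mul_single, vx, Matrix.single_add, single_op_sub, single_op_neg, single_op_smul, pairN_add,
    pairN_sub, pairN_neg, pairN_smul, pair_zero, smul_tmul_pair, neg_tmul', sub_tmul', tmul_neg',
    mul_neg_op, neg_mul_op, mul_assoc, Maps.d_x_apply, Maps.x_comm, smul_neg, smul_add, TensorProduct.add_tmul, TensorProduct.tmul_add,
    TensorProduct.tmul_smul, -Prod.mk_add_mk, -Prod.mk_sub_mk, -Prod.neg_mk, -Prod.smul_mk,
    -Matrix.smul_single, -Maps.x_apply, -Maps.d_apply] at h0 h1 ⊢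
  linear_combination (norm := module) h0 + h1

theorem lift_d2p (j : ℕ) :
    (m1 j).comp (d2p (j + 1)) = (d2p j).comp (m2pp j) + (d2m j).comp (m2pm j) := by
  refine Qm_ext fun t => inc_W1_ext fun i k => ?_
  fin_cases i <;> fin_cases k
  · exact lift_d2p_00 j t
  · exact lift_d2p_01 j t
  · exact lift_d2p_10 j t
  · exact lift_d2p_11 j t




theorem lift_d2 (j : ℕ) : (m1 j).comp (d2 (j + 1)) = (d2 j).comp (m2 j) := by
  rw [d2, d2, m2, LinearMap.comp_coprod, LinearMap.comp_coprod, LinearMap.coprod_comp_prod,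
    LinearMap.coprod_comp_prod, lift_d2p, lift_d2m, LinearMap.comp_zero, zero_add]

theorem euler_Lp {j : ℕ} (p : Lp (j + 1)) : E (p : Pol) = cc j • (p : Pol) := by
  have h : E (p : Pol) = _ := euler_apply (Lp_homog p)
  simpa [cc] using h

theorem lift_d3p (j : ℕ) : (m2pp j).comp (d3p (j + 1)) = (d3p j).comp (m3 j) := by
  refine Qm_ext fun p => inc_injective (ι := (Lm j).subtype) Subtype.val_injective ?_
  have h0 := congrArg (ΦN 0 (sP 0) LinearMap.id) (Maps.lift_three_plus (cc j) 0 (p : Pol))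
  have h1 := congrArg (ΦN 0 (sP 1) LinearMap.id) (Maps.lift_three_plus (cc j) 1 (p : Pol))
  simp [m2pp_eq, d3p, m3, cc_succ, inc_BN, inc_NB, Maps.Ppp, Maps.P3, Maps.T, Maps.D3p, mGp, mVp,
    Fin.sum_univ_two, single_mul_mX, mX_mul_single, vx, sP, δ, add_mul, mul_add, sub_mul, mul_sub,
    sub_tmul', TensorProduct.add_tmul, TensorProduct.tmul_add, TensorProduct.tmul_smul,
    Matrix.single_add, single_op_sub, pairN_add, pairN_sub, tmul_neg', smul_neg, smul_add,
    Maps.a, mul_assoc, cc, single_op_smul, pairN_smul, smul_tmul_pair, -Matrix.smul_single,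
    -Prod.smul_mk, -Prod.mk_add_mk, -Prod.mk_sub_mk, -Maps.x_apply, -Maps.d_apply] at h0 h1 ⊢
  linear_combination (norm := module) h0 + h1

set_option maxHeartbeats 1600000 in
-- term by term comparison of tensors
theorem lift_d3m (j : ℕ) :
    (m2pm j).comp (d3p (j + 1)) + (m2mm j).comp (d3m (j + 1)) = (d3m j).comp (m3 j) := by
  refine Qm_ext fun p => inc_injective (ι := (Lp (j + 1)).subtype) Subtype.val_injective ?_
  have hE : E (p : Pol) = cc j • (p : Pol) := euler_Lp p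
  have h0 := congrArg (ΦN 0 (sM 0) LinearMap.id) (Maps.lift_three_minus (cc j) 0 (p : Pol) hE)
  have h1 := congrArg (ΦN 0 (sM 1) LinearMap.id) (Maps.lift_three_minus (cc j) 1 (p : Pol) hE)
  simp only [m2pm_eq, m2mm, d3p, d3m, m3, Fin.sum_univ_two, LinearMap.comp_apply,
    LinearMap.add_apply, map_add, inc_BN, inc_NB]
  simp [m2pm_eq, m2mm, d3p, d3m, m3, cc_succ, inc_BN, inc_NB, Maps.Ppm, Maps.Pmm, Maps.P3, Maps.T,
    Maps.D3p, Maps.D3m, mGp, mVp, mGm, mVm, mC, mF, mH, mK, Fin.sum_univ_two, single_mul_mX,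
    mX_mul_single, mul_single_single, vx, sP, sM, δ, add_mul, mul_add, sub_mul, mul_sub, pair_zero,
    sub_tmul', TensorProduct.add_tmul, TensorProduct.tmul_add, TensorProduct.tmul_smul,
    Matrix.single_add, single_op_sub, single_op_neg, pairN_add, pairN_sub, pairN_neg, neg_tmul',
    neg_mul_op, mul_neg_op, tmul_neg', smul_neg, smul_add, Maps.d_mul_x, Maps.d_mul_x', E, Maps.a,
    mul_assoc, cc, single_op_smul, pairN_smul, smul_tmul_pair, -Matrix.smul_single,
    -Prod.smul_mk, -Prod.neg_mk, -Prod.mk_add_mk, -Prod.mk_sub_mk, -Maps.x_apply,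
    -Maps.d_apply] at h0 h1 ⊢
  linear_combination (norm := module) h0 + h1

theorem lift_d3 (j : ℕ) : (m2 j).comp (d3 (j + 1)) = (d3 j).comp (m3 j) := by
  refine LinearMap.ext fun v => Prod.ext ?_ ?_
  · simpa [m2, d3] using LinearMap.congr_fun (lift_d3p j) v
  · simpa [m2, d3] using LinearMap.congr_fun (lift_d3m j) v

end Vale.Agent.P195.Model
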