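import Vale.Agent.P195.Model.Cone
import Vale.Agent.P195.Model.Maps

/-!
P195: the augmentation `Q0 j → Cone j` kills the first differential and turns the lift on `O2`
into a multiple of the step of the orbit.
-/

noncomputable section

namespace Vale.Agent.P195.Model

open Matrix MvPolynomial Weyl
open scoped TensorProduct

/-- The augmentation after a map given by a degree-zero matrix. -/
theorem aug_mqB {k : Fin 5} {j : ℕ} {W : Type*} [AddCommGroup W] [Module ℂ W] {M : Mat}
    (hM : M ∈ hom 0 0) (hs : Sup k 4 M) (T : W →ₗ[ℂ] Lp j) (g : col k) (w : W) :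
    aug j (mqB hM hs T (g ⊗ₜ[ℂ] w)) = (g : A) • (ofB M hM • augVec j (T w)) := by
  rw [mqB, mapQ_tmul, aug_tmul]
  exact mul_smul (g : A) _ _

/-- The augmentation after a map given by a translation matrix. -/
theorem aug_mqN {k : Fin 5} {j : ℕ} {W : Type*} [AddCommGroup W] [Module ℂ W] {M : Mat}
    (hM : M ∈ hom 1 2) (hs : Sup k 4 M) (T : W →ₗ[ℂ] Lp j) (g : col k) (w : W) :
    aug j (mqN hM hs T (g ⊗ₜ[ℂ] w)) = (g : A) • (ofN M hM • augVec j (T w)) := by
  rw [mqN, mapQ_tmul, aug_tmul]
  exact mul_smul (g : A) _ _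

theorem aT_val {j : ℕ} (i k : Fin 2) (f : Lp j) : (aT j i k f : Pol) = x i (d k (f : Pol)) := rfl

theorem dT_val {j : ℕ} (i : Fin 2) (f : Lp (j + 1)) : (dT j i f : Pol) = d i (f : Pol) := rfl

theorem ofB_smul_augVec {j : ℕ} {M : Mat} (hM : M ∈ hom 0 0) (p : Lp j) :
    (ofB M hM • augVec j p).hi = 0 := funext fun r => Subtype.ext <| by
  rw [hi_smul_augVec]
  simp

/-- `aug ∘ d1 = 0`. -/
theorem aug_d1 (j : ℕ) : (aug j).comp (d1 j) = 0 := by
  refine TensorProduct.AlgebraTensorModule.ext fun g w => ?_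
  simp only [d1, LinearMap.comp_apply, LinearMap.sum_apply, LinearMap.add_apply, map_sum, map_add,
    LinearMap.zero_apply, aug_mqB, ← smul_add]
  refine Finset.sum_eq_zero fun i _ => Finset.sum_eq_zero fun k _ => ?_
  rw [show ofB (mA i k) (hom_A i k) • augVec j (pr j i k w) + ofB mJ hom_J •
      augVec j (((-1 : ℂ) • aT j i k ∘ₗ pr j i k) w) = 0 from Cone.ext
        (by rw [Cone.hi_add, ofB_smul_augVec, ofB_smul_augVec, add_zero]; rfl)
        (funext fun r => Subtype.ext ?_), smul_zero]
  rw [Cone.lo_add, Cone.lo_zero, Pi.add_apply, Submodule.coe_add, lo_smul_augVec, lo_smul_augVec]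
  fin_cases r <;> simp [mA, mJ, aT_val, pr, Maps.a]

/-- `aug ∘ m0 = c ^ 3 · step ∘ aug`. -/
theorem aug_m0 (j : ℕ) :
    (aug j).comp (m0 j) = (cc j ^ 3) • (stepHom j).hom.comp (aug (j + 1)) := by
  refine TensorProduct.AlgebraTensorModule.ext fun g p => ?_
  have key : ∑ m, ofN (mX 4 m) (hom_X 4 m) • augVec j (dT j m p) =
      cc j • (stepHom j).hom (augVec (j + 1) p) := by
    rw [stepHom_apply, augVec_apply]
    refine Cone.ext (funext fun r => Subtype.ext ?_) (funext fun r => Subtype.ext ?_)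
    · rw [Fin.sum_univ_two, Cone.hi_add, Pi.add_apply, Submodule.coe_add, hi_smul_augVec,
        hi_smul_augVec]
      show _ = ((cc j • (Pi.single 6 p : FL (j + 1))) r : Pol)
      rw [Pi.smul_apply, Submodule.coe_smul]
      rcases eq_or_ne r 6 with rfl | h
      · have e := Maps.euler ((mem_homogeneousSubmodule _ _).mp p.2)
        push_cast at e
        simp [mX, vx, dT_val]
        exact e
      · simp [mX, Matrix.diagonal_apply_ne _ h, Pi.single_eq_of_ne h]
    · rw [Fin.sum_univ_two, Cone.lo_add, Pi.add_apply, Submodule.coe_add, lo_smul_augVec,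
        lo_smul_augVec]
      show _ = ((cc j • (0 : FL j)) r : Pol)
      simp
  simp only [m0, LinearMap.comp_apply, LinearMap.smul_apply, LinearMap.sum_apply, map_sum, aug_mqN,
    aug_tmul, map_smul]
  rw [← Finset.smul_sum, Finset.sum_congr rfl fun m _ => smul_comm _ _ _, ← Finset.smul_sum, key,
    smul_smul, ← pow_succ, smul_comm]

end Vale.Agent.P195.Model
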