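import Vale.Agent.P195.Model.Fam
import Vale.Agent.P195.Model.AugEq
import Vale.Agent.P195.Model.MapsEq
import Vale.Agent.P195.Exact.Vertex
import Vale.Agent.P195.Exact.Induct
import Vale.Agent.P195.Orbit.Linear

/-!
P195: the resolution of `Cone j`, exact at every place, and the chain maps over the orbit steps.
-/

noncomputable section

namespace Vale.Agent.P195.Model

open MvPolynomial Weyl CategoryTheory
open scoped TensorProduct
open Exact (Vert lmF lmH lmQ C₀ C₁ C₂ C₃ δ₁ δ₂ δ₃ evS)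

variable {j : ℕ} {s t : ℤ}

-- the instances of `A` are searched among all of Mathlib
set_option synthInstance.maxHeartbeats 400000

/-- The two admissible shifts. -/
def Shift2 (s t : ℤ) : Prop := (s = 0 ∧ t = 0) ∨ (s = 1 ∧ t = 2)

theorem rows₀ (h : Shift2 s t) (n : ℤ) (hn : n = t ∨ n = t - 1 ∨ n = t - 2) :
    ∀ c ∈ C₀ j s n, evS j c = 0 → ∃ H ∈ C₁ j s n, δ₁ H = c := by
  intro c hc he
  rcases h with ⟨rfl, rfl⟩ | ⟨rfl, rfl⟩
  · obtain ⟨H, hH, e⟩ := Exact.exact₀_zero (n := n) (by omega) hc.1 hc.2 he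
    exact ⟨H, Exact.mem_C₁.2 hH, e⟩
  · obtain ⟨H, hH, e⟩ := Exact.exact₀ (n := n) (by omega) hc.1 hc.2 he
    exact ⟨H, Exact.mem_C₁.2 hH, e⟩

theorem rows₁ (h : Shift2 s t) (n : ℤ) :
    ∀ c ∈ C₁ j s n, δ₁ c = 0 → ∃ z ∈ C₂ j s n, δ₂ j z = c := by
  intro c hc he
  obtain ⟨a, b, hQ, e⟩ := Exact.exact₁ (h.imp And.left And.left) n c (Exact.mem_C₁.1 hc) he
  exact ⟨(a, b), hQ, funext fun i => funext fun k => e i k⟩

theorem rows₂ (n : ℤ) :
    ∀ c ∈ C₂ j s n, δ₂ j c = 0 → ∃ G ∈ C₃ j s n, δ₃ j G = c := by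
  intro c hc he
  obtain ⟨G, hf, hl, e₁, e₂⟩ := Exact.exact₂ n c.1 c.2 hc fun i k => congrFun (congrFun he i) k
  exact ⟨G, ⟨hf, hl⟩, Prod.ext e₁ e₂⟩

theorem rows₃ (n : ℤ) : ∀ c ∈ C₃ j s n, δ₃ j c = 0 → c = 0 := by
  intro c hc he
  rcases lt_or_ge n 0 with hn | hn
  · exact Exact.valued_neg_eq_zero hn hc.2
  · obtain ⟨N, rfl⟩ := Exact.natLevel hn
    exact Exact.exact₃ N hc.1 hc.2 (congrArg Prod.fst he) (congrArg Prod.snd he)

theorem Shift2.nonneg (h : Shift2 s t) : 0 ≤ t ∧ 0 ≤ s + t := by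
  rcases h with ⟨rfl, rfl⟩ | ⟨rfl, rfl⟩ <;> norm_num

/-! ### One part -/

theorem part_ex₀ (h : Shift2 s t) {j' : ℕ} (hj : (j : ℤ) + s = j')
    {z : colsAt 4 s t ⊗[ℂ] Lp j} (hz : lastCol j j' s t hj z = 0) :
    ∃ y, d1C j s t y = z := by
  obtain ⟨H, hH, e⟩ := Exact.vert_exact₀ h.nonneg.1 h.nonneg.2 (rows₀ h)
    ((range_Φ₀ j s t).le ⟨z, rfl⟩) (fun r => by rw [← lastCol_eq_evS hj, hz]; rfl)
  obtain ⟨y, hy⟩ := (range_Φ₁ j s t).ge hH
  exact ⟨y, Φ₀_injective j s t (funext fun r => by rw [Φ₀_d1C, hy, e])⟩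

theorem part_ex₁ (h : Shift2 s t) {z : colsAt 3 s t ⊗[ℂ] W1 j} (hz : d1C j s t z = 0) :
    ∃ yp ym, d2pC j s t yp + d2mC j s t ym = z := by
  obtain ⟨c, hc, e⟩ := Exact.vert_exact₁ h.nonneg.1 h.nonneg.2 (fun n _ => rows₁ h n)
    ((range_Φ₁ j s t).le ⟨z, rfl⟩) (fun r => by rw [← Φ₀_d1C, hz, map_zero]; rfl)
  obtain ⟨⟨yp, ym⟩, hy⟩ := (range_Φ₂ j s t).ge hc
  exact ⟨yp, ym, Φ₁_injective j s t (funext fun r => by rw [Φ₁_d2C, hy, e])⟩

theorem part_ex₂ (h : Shift2 s t) {zp : colsAt 1 s t ⊗[ℂ] Lm j}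
    {zm : colsAt 2 s t ⊗[ℂ] Lp (j + 1)} (hz : d2pC j s t zp + d2mC j s t zm = 0) :
    ∃ y, d3pC j s t y = zp ∧ d3mC j s t y = zm := by
  obtain ⟨G, hG, e⟩ := Exact.vert_exact₂ h.nonneg.1 (fun n _ => rows₂ n)
    ((range_Φ₂ j s t).le ⟨(zp, zm), rfl⟩) (fun r => by rw [← Φ₁_d2C, hz, map_zero]; rfl)
  obtain ⟨y, hy⟩ := (range_Φ₃ j s t).ge hG
  have := Φ₂_injective j s t (a₁ := (d3pC j s t y, d3mC j s t y)) (a₂ := (zp, zm))
    (funext fun r => by rw [Φ₂_d3C, hy, e])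
  exact ⟨y, congrArg Prod.fst this, congrArg Prod.snd this⟩

theorem part_inj₃ {y : colsAt 0 s t ⊗[ℂ] Lp j} (hp : d3pC j s t y = 0)
    (hm : d3mC j s t y = 0) : y = 0 :=
  Φ₃_injective j s t ((Exact.vert_injective₃ (fun n _ => rows₃ n) ((range_Φ₃ j s t).le ⟨y, rfl⟩)
    fun r => by rw [← Φ₂_d3C, hp, hm, ← Prod.zero_eq_mk, map_zero]; rfl).trans (map_zero _).symm)

/-- An operator at one entry of the last column shifts the lattices. -/
theorem single_mem_colsAt {u : Op} (hu : u ∈ fil s t) (r : Fin 7) :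
    Matrix.single r 6 u ∈ colsAt 4 s t := by
  refine mem_colsAt.mpr ⟨mem_hom_iff.mpr fun g => ?_, ?_⟩
  · rw [vm_single]
    refine mem_lat_unit fun q => ?_
    rcases eq_or_ne q 6 with rfl | hq
    · rw [Pi.single_eq_same]
      have := Weyl.mul_mem (entry_mem (gen_mem g) r) hu
      exact fil_mono (by simp [lvl]; omega) this
    · rw [Pi.single_eq_of_ne hq]
      exact zero_mem _
  · ext a b
    simp only [vproj, Matrix.mul_diagonal, Matrix.single_apply]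
    by_cases hb : 6 = b
    · subst hb; simp [vx]
    · simp [hb]

theorem lastCol_single {j' : ℕ} {u : Op} (hu : u ∈ fil s t) (hj : (j : ℤ) + s = j')
    (r : Fin 7) (p : Lp j) (f : Lp j') (hf : u (p : Pol) = f) :
    lastCol j j' s t hj ((⟨_, single_mem_colsAt hu r⟩ : colsAt 4 s t) ⊗ₜ[ℂ] p) =
      Pi.single r f := funext fun q => Subtype.ext <| by
  rw [lastCol_tmul]
  rcases eq_or_ne q r with rfl | hq
  · simp [hf]
  · simp [Matrix.single_apply, hq, Ne.symm hq]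

theorem lastCol_surjective₀ (f : FL j) :
    ∃ z, lastCol j j 0 0 (by norm_num) z = f := by
  have h1 : (1 : Op) ∈ fil 0 0 := Weyl.one_mem le_rfl
  refine ⟨∑ r, (⟨_, single_mem_colsAt h1 r⟩ : colsAt 4 0 0) ⊗ₜ[ℂ] f r, ?_⟩
  rw [map_sum]
  conv_rhs => rw [← Finset.univ_sum_single f]
  exact Finset.sum_congr rfl fun r _ => lastCol_single h1 _ r (f r) (f r) rfl

theorem lastCol_surjective₁ (f : FL (j + 1)) :
    ∃ z, lastCol j (j + 1) 1 2 (by norm_num) z = f := by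
  have hc : cc j ≠ 0 := by exact_mod_cast Nat.succ_ne_zero j
  have hx : ∀ m, x m ∈ fil 1 2 := fun m => Weyl.x_mem m (by norm_num)
  refine ⟨(cc j)⁻¹ • ∑ r, ∑ m : Fin 2,
    (⟨_, single_mem_colsAt (hx m) r⟩ : colsAt 4 1 2)
      ⊗ₜ[ℂ] dT j m (f r), ?_⟩
  rw [map_smul, map_sum]
  conv_rhs => rw [← Finset.univ_sum_single f]
  rw [Finset.smul_sum]
  refine Finset.sum_congr rfl fun r _ => ?_
  rw [map_sum, Finset.sum_congr rfl fun m _ => lastCol_single (hx m) _ r (dT j m (f r))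
    ⟨x m (dT j m (f r) : Pol), xT_mem m (dT j m (f r))⟩ rfl, Fin.sum_univ_two, ← Pi.single_add,
    ← Pi.single_smul]
  refine congrArg _ (Subtype.ext ?_)
  show (cc j)⁻¹ • (x 0 (d 0 (f r : Pol)) + x 1 (d 1 (f r : Pol))) = (f r : Pol)
  have he := euler_apply ((mem_homogeneousSubmodule (j + 1) _).mp (f r).2)
  rw [LinearMap.add_apply, Module.End.mul_apply, Module.End.mul_apply, Nat.cast_succ] at he
  rw [he, smul_smul, inv_mul_cancel₀ hc, one_smul]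

/-! ### The whole terms -/

theorem aug_surjective (j : ℕ) : Function.Surjective (aug j) := by
  intro z
  obtain ⟨p, hp⟩ := lastCol_surjective₀ z.lo
  obtain ⟨q, hq⟩ := lastCol_surjective₁ z.hi
  refine ⟨(partsEquiv 4).symm (p, q), ?_⟩
  rw [aug_parts, LinearEquiv.apply_symm_apply, hp, hq]
  rfl

theorem ex₀ (j : ℕ) : LinearMap.range (d1 j) = LinearMap.ker (aug j) := by
  refine le_antisymm ?_ fun z hz => ?_
  · rintro _ ⟨y, rfl⟩
    exact LinearMap.congr_fun (aug_d1 j) y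
  rw [LinearMap.mem_ker, aug_parts] at hz
  obtain ⟨p, hp⟩ := part_ex₀ (Or.inl ⟨rfl, rfl⟩) _ (congrArg Cone.lo hz)
  obtain ⟨q, hq⟩ := part_ex₀ (Or.inr ⟨rfl, rfl⟩) _ (congrArg Cone.hi hz)
  refine ⟨(partsEquiv 3).symm (p, q), (partsEquiv 4).injective ?_⟩
  rw [partsEquiv_d1, LinearEquiv.apply_symm_apply, hp, hq]

theorem partsEquiv_d2 (j : ℕ) (y : Q2 j) :
    partsEquiv 3 (d2 j y) =
      (d2pC j 0 0 (partsEquiv 1 y.1).1 + d2mC j 0 0 (partsEquiv 2 y.2).1,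
        d2pC j 1 2 (partsEquiv 1 y.1).2 + d2mC j 1 2 (partsEquiv 2 y.2).2) := by
  rw [d2, LinearMap.coprod_apply, map_add, partsEquiv_d2p, partsEquiv_d2m, Prod.mk_add_mk]

theorem ex₁ (j : ℕ) : LinearMap.range (d2 j) = LinearMap.ker (d1 j) := by
  refine le_antisymm ?_ fun z hz => ?_
  · rintro _ ⟨y, rfl⟩
    exact LinearMap.congr_fun (d1_d2 j) y
  have h := congrArg (partsEquiv 4) (LinearMap.mem_ker.1 hz)
  rw [partsEquiv_d1, map_zero, Prod.ext_iff] at h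
  obtain ⟨a, b, hab⟩ := part_ex₁ (Or.inl ⟨rfl, rfl⟩) h.1
  obtain ⟨a', b', hab'⟩ := part_ex₁ (Or.inr ⟨rfl, rfl⟩) h.2
  refine ⟨((partsEquiv 1).symm (a, a'), (partsEquiv 2).symm (b, b')), (partsEquiv 3).injective ?_⟩
  simp only [partsEquiv_d2, LinearEquiv.apply_symm_apply, hab, hab']

theorem ex₂ (j : ℕ) : LinearMap.range (d3 j) = LinearMap.ker (d2 j) := by
  refine le_antisymm ?_ fun z hz => ?_
  · rintro _ ⟨y, rfl⟩
    exact LinearMap.congr_fun (d2_d3 j) y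
  have h := congrArg (partsEquiv 3) (LinearMap.mem_ker.1 hz)
  rw [partsEquiv_d2, map_zero, Prod.ext_iff] at h
  obtain ⟨a, ha, ha'⟩ := part_ex₂ (Or.inl ⟨rfl, rfl⟩) h.1
  obtain ⟨b, hb, hb'⟩ := part_ex₂ (Or.inr ⟨rfl, rfl⟩) h.2
  refine ⟨(partsEquiv 0).symm (a, b), Prod.ext ((partsEquiv 1).injective ?_)
    ((partsEquiv 2).injective ?_)⟩
  · show partsEquiv 1 (d3p j ((partsEquiv 0).symm (a, b))) = _
    rw [partsEquiv_d3p, LinearEquiv.apply_symm_apply, ha, hb]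
  · show partsEquiv 2 (d3m j ((partsEquiv 0).symm (a, b))) = _
    rw [partsEquiv_d3m, LinearEquiv.apply_symm_apply, ha', hb']

theorem inj₃ (j : ℕ) : Function.Injective (d3 j) := by
  refine (injective_iff_map_eq_zero _).2 fun y hy => ?_
  rw [d3, LinearMap.prod_apply, Function.prod_apply, Prod.ext_iff] at hy
  have h1 := congrArg (partsEquiv 1) hy.1
  have h2 := congrArg (partsEquiv 2) hy.2
  rw [partsEquiv_d3p, Prod.fst_zero, map_zero, Prod.ext_iff] at h1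
  rw [partsEquiv_d3m, Prod.snd_zero, map_zero, Prod.ext_iff] at h2
  exact (partsEquiv 0).injective ((Prod.ext (part_inj₃ h1.1 h2.1) (part_inj₃ h1.2 h2.2)).trans
    (map_zero _).symm)

/-! ### Resolution and lift -/

/-- The exact sequence over `Cone j`. -/
def seq (j : ℕ) : Orbit.Seq (I j) where
  Q₀ := ModuleCat.of A (Q0 j)
  Q₁ := ModuleCat.of A (Q1 j)
  Q₂ := ModuleCat.of A (Q2 j)
  Q₃ := ModuleCat.of A (Q3 j)
  proj₀ := Qm_projective 4
  proj₁ := Qm_projective 3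
  proj₂ :=
    haveI : Module.Projective A (Qm 1 (Lm j)) := Qm_projective 1
    haveI : Module.Projective A (Qm 2 (Lp (j + 1))) := Qm_projective 2
    inferInstanceAs (Module.Projective A (Qm 1 (Lm j) × Qm 2 (Lp (j + 1))))
  proj₃ := Qm_projective 0
  d₀ := aug j
  d₁ := d1 j
  d₂ := d2 j
  d₃ := d3 j
  surj := aug_surjective j
  ex₀ := ex₀ j
  ex₁ := ex₁ j
  ex₂ := ex₂ j
  inj := inj₃ j

/-- The resolution of `Cone j`. -/
def R (j : ℕ) : Orbit.Res3 (I j) := (seq j).res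

/-- The factor that undoes the scaling of the lift. -/
def nu (j : ℕ) : ℂ := (cc j ^ 3)⁻¹

theorem scaled_sq₀ (j : ℕ) (z : Q0 (j + 1)) :
    aug j (nu j • m0 j z) = Cone.mk (aug (j + 1) z).lo 0 := by
  have h : aug j (m0 j z) = cc j ^ 3 • Cone.mk (aug (j + 1) z).lo 0 :=
    LinearMap.congr_fun (aug_m0 j) z
  rw [LinearMap.map_smul_of_tower, h, smul_smul, nu,
    inv_mul_cancel₀ (pow_ne_zero 3 (Nat.cast_add_one_ne_zero j)), one_smul]

theorem scaled_sq₁ (j : ℕ) : (d1 j).comp (nu j • m1 j) = (nu j • m0 j).comp (d1 (j + 1)) := by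
  rw [LinearMap.comp_smul, LinearMap.smul_comp, lift_d1]

theorem scaled_sq₂ (j : ℕ) : (d2 j).comp (nu j • m2 j) = (nu j • m1 j).comp (d2 (j + 1)) := by
  rw [LinearMap.comp_smul, LinearMap.smul_comp, lift_d2]

theorem scaled_sq₃ (j : ℕ) : (d3 j).comp (nu j • m3 j) = (nu j • m2 j).comp (d3 (j + 1)) := by
  rw [LinearMap.comp_smul, LinearMap.smul_comp, lift_d3]

/-- The scaled lift as a chain map over the orbit step. -/
def liftHom (j : ℕ) : (seq j).Hom (seq (j + 1)) (projHom (j + 1) ≫ inclHom j) where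
  m₀ := nu j • m0 j
  m₁ := nu j • m1 j
  m₂ := nu j • m2 j
  m₃ := nu j • m3 j
  sq₀ := LinearMap.ext (scaled_sq₀ j)
  sq₁ := scaled_sq₁ j
  sq₂ := scaled_sq₂ j
  sq₃ := scaled_sq₃ j

/-- The lift over the orbit step. -/
def L (j : ℕ) : (R j).Lift (R (j + 1)) (projHom (j + 1) ≫ inclHom j) := (liftHom j).lift

theorem R_d₃ (j : ℕ) : (R j).d₃ = ModuleCat.ofHom (d3 j) := rfl

theorem L_top (j : ℕ) : (L j).m₃.τ₁ = ModuleCat.ofHom (nu j • m3 j) := rfl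

end Vale.Agent.P195.Model
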