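import Vale.Agent.P195.Model.Lattice
import Mathlib.Data.Matrix.Block
import Mathlib.RingTheory.MvPolynomial.Homogeneous
import Mathlib.RingTheory.Finiteness.Prod
import Mathlib.Algebra.Module.Projective

/-!
P195: the algebra `A` of lattice-preserving block matrices and its column projectives.
-/

noncomputable section

namespace Vale.Agent.P195.Model

open Matrix Weyl

/-- Block matrices over two copies of the slots. -/
abbrev Big : Type := Matrix (Fin 7 ⊕ Fin 7) (Fin 7 ⊕ Fin 7) Op

/-- The block matrix of a degree-zero part and a translation part. -/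
def blk (b m : Mat) : Big := fromBlocks b m 0 b

theorem blk_mul (b c m m' : Mat) : blk b m * blk c m' = blk (b * c) (b * m' + m * c) := by
  simp [blk, fromBlocks_multiply]

theorem blk_add (b c m m' : Mat) : blk b m + blk c m' = blk (b + c) (m + m') := by
  simp [blk, fromBlocks_add]

theorem blk_one : blk 1 0 = 1 := fromBlocks_one

theorem blk_smul (z : ℂ) (b m : Mat) : z • blk b m = blk (z • b) (z • m) := by
  simp [blk, fromBlocks_smul]

/-- The algebra `A`. -/
def algA : Subalgebra ℂ Big where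
  carrier := {g | ∃ b ∈ hom 0 0, ∃ m ∈ hom 1 2, g = blk b m}
  mul_mem' := by
    rintro _ _ ⟨b, hb, m, hm, rfl⟩ ⟨c, hc, m', hm', rfl⟩
    exact ⟨b * c, hom_mul hb hc (by norm_num) (by norm_num), b * m' + m * c,
      add_mem (hom_mul hb hm' (by norm_num) (by norm_num))
        (hom_mul hm hc (by norm_num) (by norm_num)), blk_mul b c m m'⟩
  add_mem' := by
    rintro _ _ ⟨b, hb, m, hm, rfl⟩ ⟨c, hc, m', hm', rfl⟩
    exact ⟨b + c, add_mem hb hc, m + m', add_mem hm hm', blk_add b c m m'⟩
  algebraMap_mem' z := by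
    refine ⟨z • 1, Submodule.smul_mem _ z one_mem_hom, 0, zero_mem _, ?_⟩
    rw [Algebra.algebraMap_eq_smul_one, ← blk_one, blk_smul, smul_zero]

/-- Elements of `A`. -/
abbrev A : Type := algA

/-- An element of `A` from its two parts. -/
def mk (b : hom 0 0) (m : hom 1 2) : A := ⟨blk b m, b, b.2, m, m.2, rfl⟩

/-- The degree-zero part. -/
def bPart : A →ₐ[ℂ] Mat where
  toFun g := (g : Big).toBlocks₁₁
  map_one' := by rw [OneMemClass.coe_one, ← blk_one, blk, toBlocks_fromBlocks₁₁]
  map_mul' g h := by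
    obtain ⟨_, b, hb, m, hm, rfl⟩ := g
    obtain ⟨_, c, hc, m', hm', rfl⟩ := h
    rw [MulMemClass.coe_mul, blk_mul]
    rfl
  map_zero' := rfl
  map_add' _ _ := rfl
  commutes' z := by
    ext1 r k
    simp [Matrix.algebraMap_matrix_apply, toBlocks₁₁]

/-- The translation part. -/
def mPart : A →ₗ[ℂ] Mat where
  toFun g := (g : Big).toBlocks₁₂
  map_add' _ _ := rfl
  map_smul' _ _ := rfl

theorem bPart_mem (g : A) : bPart g ∈ hom 0 0 := by
  obtain ⟨_, b, hb, m, hm, rfl⟩ := g
  exact hb

theorem mPart_mem (g : A) : mPart g ∈ hom 1 2 := by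
  obtain ⟨_, b, hb, m, hm, rfl⟩ := g
  exact hm

theorem coe_eq (g : A) : (g : Big) = blk (bPart g) (mPart g) := by
  obtain ⟨_, b, hb, m, hm, rfl⟩ := g
  rfl

theorem ext_parts {g h : A} (hb : bPart g = bPart h) (hm : mPart g = mPart h) : g = h :=
  Subtype.ext (by rw [coe_eq, coe_eq, hb, hm])

@[simp] theorem bPart_mk (b : hom 0 0) (m : hom 1 2) : bPart (mk b m) = b := rfl

@[simp] theorem mPart_mk (b : hom 0 0) (m : hom 1 2) : mPart (mk b m) = m := rfl

theorem mPart_mul (g h : A) : mPart (g * h) = bPart g * mPart h + mPart g * bPart h := by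
  obtain ⟨_, b, hb, m, hm, rfl⟩ := g
  obtain ⟨_, c, hc, m', hm', rfl⟩ := h
  show ((blk b m * blk c m' : Big)).toBlocks₁₂ = _
  rw [blk_mul]
  rfl

instance finite_A : Module.Finite ℂ A := by
  let φ : (hom 0 0 × hom 1 2) →ₗ[ℂ] A :=
    { toFun := fun p => mk p.1 p.2
      map_add' := fun p p' => ext_parts rfl rfl
      map_smul' := fun z p => ext_parts rfl rfl }
  exact Module.Finite.of_surjective φ fun g =>
    ⟨(⟨bPart g, bPart_mem g⟩, ⟨mPart g, mPart_mem g⟩), ext_parts rfl rfl⟩

/-- The idempotent of a vertex. -/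
def eV (i : Fin 5) : A := mk ⟨vproj i, vproj_mem i⟩ 0

theorem eV_idem (i : Fin 5) : eV i * eV i = eV i :=
  ext_parts (by rw [map_mul]; exact vproj_mul_self i)
    (by rw [mPart_mul]; simp [eV])

/-- The column projective of a vertex. -/
def col (i : Fin 5) : Submodule A A := Submodule.span A {eV i}

theorem mem_col {i : Fin 5} {g : A} : g ∈ col i ↔ g * eV i = g := by
  rw [col, Submodule.mem_span_singleton]
  refine ⟨?_, fun h => ⟨g, h⟩⟩
  rintro ⟨a, rfl⟩
  rw [smul_eq_mul, mul_assoc, eV_idem]

instance col_projective (i : Fin 5) : Module.Projective A (col i) :=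
  Module.Projective.of_split (col i).subtype
    ((LinearMap.toSpanSingleton A A (eV i)).codRestrict (col i) fun g =>
      Submodule.mem_span_singleton.mpr ⟨g, rfl⟩)
    (LinearMap.ext fun g => Subtype.ext (mem_col.mp g.2))

end Vale.Agent.P195.Model
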