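import Vale.Agent.P195.Model.Alg
import Mathlib.LinearAlgebra.TensorProduct.Tower
import Mathlib.LinearAlgebra.FreeModule.Basic
import Mathlib.LinearAlgebra.Basis.VectorSpace
import Mathlib.Algebra.Module.Projective

/-!
P195: the projective modules `Qm k W = A e_k ⊗ W`, maps between them, and the description of
their cochains by linear maps into the rows of a vertex.
-/

noncomputable section

namespace Vale.Agent.P195.Model

open Matrix Weyl
open scoped TensorProduct

/-- Matrices of `hom s t` supported in the rows of a vertex. -/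
def rowsAt (i : Fin 5) (s t : ℤ) : Submodule ℂ Mat :=
  hom s t ⊓ LinearMap.eqLocus (LinearMap.mulLeft ℂ (vproj i)) LinearMap.id

theorem mem_rowsAt {i : Fin 5} {s t : ℤ} {M : Mat} :
    M ∈ rowsAt i s t ↔ M ∈ hom s t ∧ vproj i * M = M := Iff.rfl

theorem mul_mem_rowsAt {k l : Fin 5} {s t : ℤ} {a M : Mat} (ha : a ∈ hom 0 0)
    (hk : vproj k * a = a) (hM : M ∈ rowsAt l s t) : a * M ∈ rowsAt k s t :=
  mem_rowsAt.mpr ⟨hom_mul ha (mem_rowsAt.mp hM).1 (by omega) (by omega),
    by rw [← mul_assoc, hk]⟩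

/-- A degree-zero matrix as an element of `A`. -/
def ofB (b : Mat) (hb : b ∈ hom 0 0) : A := mk ⟨b, hb⟩ 0

/-- A translation matrix as an element of `A`. -/
def ofN (m : Mat) (hm : m ∈ hom 1 2) : A := mk 0 ⟨m, hm⟩

@[simp] theorem bPart_ofB (b : Mat) (hb : b ∈ hom 0 0) : bPart (ofB b hb) = b := rfl
@[simp] theorem mPart_ofB (b : Mat) (hb : b ∈ hom 0 0) : mPart (ofB b hb) = 0 := rfl
@[simp] theorem bPart_ofN (m : Mat) (hm : m ∈ hom 1 2) : bPart (ofN m hm) = 0 := rfl
@[simp] theorem mPart_ofN (m : Mat) (hm : m ∈ hom 1 2) : mPart (ofN m hm) = m := rfl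
@[simp] theorem bPart_eV (k : Fin 5) : bPart (eV k) = vproj k := rfl
@[simp] theorem mPart_eV (k : Fin 5) : mPart (eV k) = 0 := rfl

theorem eV_mul_ofB {k : Fin 5} {b : Mat} {hb : b ∈ hom 0 0} (h : vproj k * b = b) :
    eV k * ofB b hb = ofB b hb :=
  ext_parts (by simp [h]) (by simp [mPart_mul])

theorem ofB_mul_eV {k : Fin 5} {b : Mat} {hb : b ∈ hom 0 0} (h : b * vproj k = b) :
    ofB b hb * eV k = ofB b hb :=
  ext_parts (by simp [h]) (by simp [mPart_mul])

theorem eV_mul_ofN {k : Fin 5} {m : Mat} {hm : m ∈ hom 1 2} (h : vproj k * m = m) :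
    eV k * ofN m hm = ofN m hm :=
  ext_parts (by simp) (by simp [mPart_mul, h])

theorem ofN_mul_eV {k : Fin 5} {m : Mat} {hm : m ∈ hom 1 2} (h : m * vproj k = m) :
    ofN m hm * eV k = ofN m hm :=
  ext_parts (by simp) (by simp [mPart_mul, h])

theorem eV_mul_eq_iff {k : Fin 5} {x : A} :
    eV k * x = x ↔ vproj k * bPart x = bPart x ∧ vproj k * mPart x = mPart x := by
  refine ⟨fun h => ⟨?_, ?_⟩, fun h => ext_parts (by simpa using h.1) ?_⟩
  · conv_rhs => rw [← h]
    simp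
  · conv_rhs => rw [← h]
    simp [mPart_mul]
  · simp [mPart_mul, h.2]

/-- The part of a module at a vertex. -/
def eX (k : Fin 5) (X : Type*) [AddCommGroup X] [Module A X] [Module ℂ X]
    [IsScalarTower ℂ A X] : Submodule ℂ X where
  carrier := {x | eV k • x = x}
  add_mem' hx hy := by
    simp only [Set.mem_ofPred_eq] at *
    rw [smul_add, hx, hy]
  zero_mem' := smul_zero _
  smul_mem' c x hx := by
    simp only [Set.mem_ofPred_eq] at *
    rw [smul_comm, hx]

/-- The rows at a vertex of the regular module: a degree-zero and a translation part. -/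
def rowsEquiv (k : Fin 5) : eX k A ≃ₗ[ℂ] rowsAt k 0 0 × rowsAt k 1 2 where
  toFun x := (⟨bPart x.1, mem_rowsAt.mpr ⟨bPart_mem _, (eV_mul_eq_iff.mp x.2).1⟩⟩,
    ⟨mPart x.1, mem_rowsAt.mpr ⟨mPart_mem _, (eV_mul_eq_iff.mp x.2).2⟩⟩)
  map_add' _ _ := rfl
  map_smul' _ _ := rfl
  invFun p := ⟨mk ⟨p.1.1, (mem_rowsAt.mp p.1.2).1⟩ ⟨p.2.1, (mem_rowsAt.mp p.2.2).1⟩,
    eV_mul_eq_iff.mpr ⟨(mem_rowsAt.mp p.1.2).2, (mem_rowsAt.mp p.2.2).2⟩⟩
  left_inv x := Subtype.ext (ext_parts rfl rfl)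
  right_inv p := rfl

variable {W W' : Type*} [AddCommGroup W] [Module ℂ W] [AddCommGroup W'] [Module ℂ W']

/-- The projective module `A e_k ⊗ W`. -/
abbrev Qm (k : Fin 5) (W : Type*) [AddCommGroup W] [Module ℂ W] : Type _ := col k ⊗[ℂ] W

instance instAddCommGroupCol (k : Fin 5) : AddCommGroup (col k) :=
  @Submodule.addCommGroup A A _ _ _ (col k)

instance instAddCommGroupQm (k : Fin 5) (W : Type*) [AddCommGroup W] [Module ℂ W] :
    AddCommGroup (Qm k W) := TensorProduct.addCommGroup (R := ℂ) (M := col k) (N := W)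

/-- The generator `e_k` of a column. -/
def gE (k : Fin 5) : col k := ⟨eV k, mem_col.mpr (eV_idem k)⟩

theorem smul_gE {k : Fin 5} (g : col k) : (g : A) • gE k = g := Subtype.ext (mem_col.mp g.2)

/-- Right multiplication between columns. -/
def rmul {k l : Fin 5} (a : A) (hl : a * eV l = a) : col k →ₗ[A] col l where
  toFun g := ⟨(g : A) * a, mem_col.mpr (by rw [mul_assoc, hl])⟩
  map_add' g h := Subtype.ext (add_mul (g : A) h a)
  map_smul' c g := Subtype.ext (mul_assoc c (g : A) a)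

/-- The map `g ⊗ w ↦ g a ⊗ T w`. -/
def mapQ {k l : Fin 5} (a : A) (hl : a * eV l = a) (T : W →ₗ[ℂ] W') :
    Qm k W →ₗ[A] Qm l W' :=
  TensorProduct.AlgebraTensorModule.map (rmul a hl) T

@[simp] theorem mapQ_tmul {k l : Fin 5} (a : A) (hl : a * eV l = a) (T : W →ₗ[ℂ] W') (g : col k)
    (w : W) : mapQ a hl T (g ⊗ₜ[ℂ] w) = rmul a hl g ⊗ₜ[ℂ] T w := rfl

variable {X : Type*} [AddCommGroup X] [Module A X] [Module ℂ X] [IsScalarTower ℂ A X]

/-- Extension of a linear map to `A e_k ⊗ W`. -/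
def extend {k : Fin 5} (ψ : W →ₗ[ℂ] eX k X) : Qm k W →ₗ[A] X :=
  TensorProduct.AlgebraTensorModule.lift
    { toFun := fun g => (g : A) • ((eX k X).subtype.comp ψ)
      map_add' := fun g h => add_smul (g : A) h _
      map_smul' := fun c g => mul_smul c (g : A) _ }

@[simp] theorem extend_tmul {k : Fin 5} (ψ : W →ₗ[ℂ] eX k X) (g : col k) (w : W) :
    extend ψ (g ⊗ₜ[ℂ] w) = (g : A) • (ψ w : X) := rfl

/-- Maps out of `A e_k ⊗ W` are linear maps into the part at `k`. -/
def homEquiv (k : Fin 5) : (Qm k W →ₗ[A] X) ≃ (W →ₗ[ℂ] eX k X) where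
  toFun φ := ((φ.restrictScalars ℂ).comp (TensorProduct.mk ℂ (col k) W (gE k))).codRestrict
    (eX k X) fun w => by
      show eV k • φ (gE k ⊗ₜ[ℂ] w) = φ (gE k ⊗ₜ[ℂ] w)
      rw [← map_smul, TensorProduct.smul_tmul']
      exact congrArg (fun g => φ (g ⊗ₜ[ℂ] w)) (smul_gE (gE k))
  invFun ψ := extend ψ
  left_inv φ := TensorProduct.AlgebraTensorModule.ext fun g w => by
    show (g : A) • φ (gE k ⊗ₜ[ℂ] w) = φ (g ⊗ₜ[ℂ] w)
    rw [← map_smul, TensorProduct.smul_tmul', smul_gE]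
  right_inv ψ := LinearMap.ext fun w => Subtype.ext (ψ w).2

@[simp] theorem homEquiv_apply {k : Fin 5} (φ : Qm k W →ₗ[A] X) (w : W) :
    (homEquiv k φ w : X) = φ (gE k ⊗ₜ[ℂ] w) := rfl

theorem homEquiv_add {k : Fin 5} (φ φ' : Qm k W →ₗ[A] X) :
    homEquiv k (φ + φ') = homEquiv k φ + homEquiv k φ' := rfl

/-- The cochain map of `mapQ`: left multiplication and precomposition. -/
theorem homEquiv_comp_mapQ {k l : Fin 5} (a : A) (hk : eV k * a = a) (hl : a * eV l = a)
    (T : W →ₗ[ℂ] W') (φ : Qm l W' →ₗ[A] X) (w : W) :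
    (homEquiv k (φ.comp (mapQ a hl T)) w : X) = a • (homEquiv l φ (T w) : X) := by
  show φ (rmul a hl (gE k) ⊗ₜ[ℂ] T w) = a • φ (gE l ⊗ₜ[ℂ] T w)
  rw [← map_smul, TensorProduct.smul_tmul']
  congr 2
  exact Subtype.ext (hk.trans hl.symm)

/-- `A e_k ⊗ W` is projective. -/
theorem Qm_projective (k : Fin 5) : Module.Projective A (Qm k W) := by
  classical
  let b := Module.Free.chooseBasis ℂ W
  let ι : Qm k W →ₗ[A] (Module.Free.ChooseBasisIndex ℂ W →₀ A) :=
    TensorProduct.AlgebraTensorModule.lift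
      { toFun := fun g => ((Finsupp.mapRange.linearMap
            (LinearMap.toSpanSingleton ℂ A (g : A))).comp b.repr.toLinearMap)
        map_add' := fun g h => LinearMap.ext fun w => Finsupp.ext fun i => by simp
        map_smul' := fun c g => LinearMap.ext fun w => Finsupp.ext fun i => by simp }
  let π : (Module.Free.ChooseBasisIndex ℂ W →₀ A) →ₗ[A] Qm k W :=
    Finsupp.linearCombination A fun i => gE k ⊗ₜ[ℂ] b i
  refine Module.Projective.of_split ι π (TensorProduct.AlgebraTensorModule.ext fun g w => ?_)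
  have h : (π.restrictScalars ℂ).comp
      ((Finsupp.mapRange.linearMap (LinearMap.toSpanSingleton ℂ A (g : A))).comp
        b.repr.toLinearMap) = TensorProduct.mk ℂ (col k) W g := by
    refine b.ext fun i => ?_
    simp [π, TensorProduct.smul_tmul', smul_gE]
  exact LinearMap.congr_fun h w

end Vale.Agent.P195.Model
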