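import Vale.Agent.P195.Model.Orbit
import Vale.Agent.P195.Model.Cplx
import Mathlib.Algebra.Category.ModuleCat.Basic
import Mathlib.Algebra.Homology.ShortComplex.ModuleCat
import Mathlib.Algebra.Homology.ShortComplex.ShortExact

/-!
P195: the extensions `Cone j` of `FL j` by `FL (j + 1)`, on which `A` acts by whole block matrices.
-/

noncomputable section

namespace Vale.Agent.P195.Model

open Matrix MvPolynomial Weyl CategoryTheory
open scoped TensorProduct

/-- Operators of weight one raise the degree by one. -/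
theorem apply_mem_Lp_succ {n : ℤ} {u : Op} (hu : u ∈ fil 1 n) {j : ℕ} {f : Pol} (hf : f ∈ Lp j) :
    u f ∈ Lp (j + 1) := by
  have h := apply_homog hu ((mem_homogeneousSubmodule _ _).mp hf)
  rw [show ((j : ℤ) + 1).toNat = j + 1 by omega] at h
  exact h

/-- The translation part as a map `FL j → FL (j + 1)`. -/
def up (j : ℕ) (g : A) (f : FL j) : FL (j + 1) := fun i =>
  ⟨∑ k, mPart g i k (f k : Pol), sum_mem fun k _ =>
    apply_mem_Lp_succ (hom_entry_mem (mPart_mem g) i k) (f k).2⟩

theorem up_val (j : ℕ) (g : A) (f : FL j) (i : Fin 7) :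
    (up j g f i : Pol) = ∑ k, mPart g i k (f k : Pol) := rfl

theorem up_add (j : ℕ) (g : A) (f f' : FL j) : up j g (f + f') = up j g f + up j g f' :=
  funext fun i => Subtype.ext <| by simp [up_val, Finset.sum_add_distrib]

theorem up_zero (j : ℕ) (g : A) : up j g 0 = 0 :=
  funext fun i => Subtype.ext <| by simp [up_val]

theorem add_up (j : ℕ) (g h : A) (f : FL j) : up j (g + h) f = up j g f + up j h f :=
  funext fun i => Subtype.ext <| by simp [up_val, Finset.sum_add_distrib]

theorem zero_up (j : ℕ) (f : FL j) : up j 0 f = 0 :=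
  funext fun i => Subtype.ext <| by simp [up_val]

theorem smul_up (j : ℕ) (z : ℂ) (g : A) (f : FL j) : up j (z • g) f = z • up j g f :=
  funext fun i => Subtype.ext <| by simp [up_val, Finset.smul_sum]

theorem one_up (j : ℕ) (f : FL j) : up j 1 f = 0 :=
  funext fun i => Subtype.ext <| by
    have h : mPart (1 : A) = 0 := by
      ext1 r k
      show ((1 : A) : Big).toBlocks₁₂ r k = 0
      simp [toBlocks₁₂]
    simp [up_val, h]

theorem up_mul (j : ℕ) (g h : A) (f : FL j) :
    up j (g * h) f = g • up j h f + up j g (h • f) :=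
  funext fun i => Subtype.ext <| by
    simp only [Pi.add_apply, Submodule.coe_add, up_val, smul_val, mPart_mul, Matrix.add_apply,
      Matrix.mul_apply, LinearMap.add_apply, LinearMap.sum_apply, map_sum, Module.End.mul_apply,
      Finset.sum_add_distrib]
    congr 1 <;> exact Finset.sum_comm

/-- The middle term of the orbit step at `j`: upper part of degree `j + 1`, lower of degree `j`. -/
def Cone (j : ℕ) : Type := FL (j + 1) × FL j

instance (j : ℕ) : AddCommGroup (Cone j) := inferInstanceAs (AddCommGroup (FL (j + 1) × FL j))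

namespace Cone

variable {j : ℕ}

/-- The upper part. -/
def hi (z : Cone j) : FL (j + 1) := Prod.fst z

/-- The lower part. -/
def lo (z : Cone j) : FL j := Prod.snd z

/-- An element from its two parts. -/
def mk (u : FL (j + 1)) (v : FL j) : Cone j := (u, v)

@[simp] theorem hi_mk (u : FL (j + 1)) (v : FL j) : (mk u v).hi = u := rfl
@[simp] theorem lo_mk (u : FL (j + 1)) (v : FL j) : (mk u v).lo = v := rfl
@[simp] theorem hi_add (z z' : Cone j) : (z + z').hi = z.hi + z'.hi := rfl
@[simp] theorem lo_add (z z' : Cone j) : (z + z').lo = z.lo + z'.lo := rfl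
@[simp] theorem hi_zero : (0 : Cone j).hi = 0 := rfl
@[simp] theorem lo_zero : (0 : Cone j).lo = 0 := rfl

@[ext] theorem ext {z z' : Cone j} (h : z.hi = z'.hi) (h' : z.lo = z'.lo) : z = z' :=
  Prod.ext h h'

end Cone

instance Cone_module (j : ℕ) : Module A (Cone j) where
  smul g z := Cone.mk (g • z.hi + up j g z.lo) (g • z.lo)
  one_smul z := Cone.ext
    (show (1 : A) • z.hi + up j 1 z.lo = z.hi by rw [one_smul, one_up, add_zero]) (one_smul A z.lo)
  mul_smul g h z := Cone.ext
    (show (g * h) • z.hi + up j (g * h) z.lo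
        = g • (h • z.hi + up j h z.lo) + up j g (h • z.lo) by
      rw [mul_smul, up_mul, smul_add]; abel)
    (mul_smul g h z.lo)
  smul_zero g := Cone.ext
    (show g • (0 : FL (j + 1)) + up j g (0 : FL j) = 0 by rw [smul_zero, up_zero, add_zero])
    (smul_zero g)
  smul_add g z z' := Cone.ext
    (show g • (z.hi + z'.hi) + up j g (z.lo + z'.lo)
        = (g • z.hi + up j g z.lo) + (g • z'.hi + up j g z'.lo) by
      rw [smul_add, up_add]; abel)
    (smul_add g z.lo z'.lo)
  add_smul g h z := Cone.ext
    (show (g + h) • z.hi + up j (g + h) z.lo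
        = (g • z.hi + up j g z.lo) + (h • z.hi + up j h z.lo) by
      rw [add_smul, add_up]; abel)
    (add_smul g h z.lo)
  zero_smul z := Cone.ext
    (show (0 : A) • z.hi + up j 0 z.lo = 0 by rw [zero_smul, zero_up, add_zero])
    (zero_smul A z.lo)

namespace Cone

variable {j : ℕ}

@[simp] theorem hi_smul (g : A) (z : Cone j) : (g • z).hi = g • z.hi + up j g z.lo := rfl

@[simp] theorem lo_smul (g : A) (z : Cone j) : (g • z).lo = g • z.lo := rfl

end Cone

instance Cone_moduleC (j : ℕ) : Module ℂ (Cone j) :=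
  inferInstanceAs (Module ℂ (FL (j + 1) × FL j))

instance Cone_tower (j : ℕ) : IsScalarTower ℂ A (Cone j) where
  smul_assoc z g w := Cone.ext
    (show (z • g) • w.hi + up j (z • g) w.lo = z • (g • w.hi + up j g w.lo) by
      rw [smul_assoc, smul_up, smul_add])
    (smul_assoc z g w.lo)

/-- A vertex idempotent acts on both parts as the projection onto the slots of the vertex. -/
theorem eV_smul_cone (i : Fin 5) {j : ℕ} (z : Cone j) :
    eV i • z = Cone.mk (eV i • z.hi) (eV i • z.lo) := by
  refine Cone.ext ?_ rfl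
  show eV i • z.hi + up j (eV i) z.lo = eV i • z.hi
  rw [add_eq_left]
  exact funext fun r => Subtype.ext <| by simp [up_val, eV]

/-- The inclusion of the upper part. -/
def incl (j : ℕ) : FL (j + 1) →ₗ[A] Cone j where
  toFun u := Cone.mk u 0
  map_add' u u' := Cone.ext rfl (add_zero (0 : FL j)).symm
  map_smul' g u := Cone.ext
    (show g • u = g • u + up j g (0 : FL j) by rw [up_zero, add_zero]) (smul_zero g).symm

/-- The projection to the lower part. -/
def proj (j : ℕ) : Cone j →ₗ[A] FL j where
  toFun z := z.lo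
  map_add' _ _ := rfl
  map_smul' _ _ := rfl

/-- The orbit objects as modules. -/
abbrev V (j : ℕ) : ModuleCat.{0} A := ModuleCat.of A (FL j)

/-- The middle objects as modules. -/
abbrev I (j : ℕ) : ModuleCat.{0} A := ModuleCat.of A (Cone j)

/-- The inclusion, as a morphism. -/
def inclHom (j : ℕ) : V (j + 1) ⟶ I j := ModuleCat.ofHom (incl j)

/-- The projection, as a morphism. -/
def projHom (j : ℕ) : I j ⟶ V j := ModuleCat.ofHom (proj j)

theorem incl_proj (j : ℕ) : inclHom j ≫ projHom j = 0 :=
  ModuleCat.hom_ext (LinearMap.ext fun _ => rfl)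

/-- `0 → V (j + 1) → I j → V j → 0` is short exact. -/
theorem cone_shortExact (j : ℕ) :
    (ShortComplex.mk (inclHom j) (projHom j) (incl_proj j)).ShortExact where
  exact := by
    rw [ShortComplex.moduleCat_exact_iff]
    intro z (hz : z.lo = 0)
    exact ⟨z.hi, Cone.ext rfl hz.symm⟩
  mono_f := (ModuleCat.mono_iff_injective _).2 fun u u' h => congrArg Cone.hi h
  epi_g := (ModuleCat.epi_iff_surjective _).2 fun v => ⟨Cone.mk 0 v, rfl⟩

/-- The generator of `Cone j` attached to a form: the slot of `O2` in the lower part. -/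
def augVec (j : ℕ) : Lp j →ₗ[ℂ] Cone j :=
  LinearMap.inr ℂ (FL (j + 1)) (FL j) ∘ₗ LinearMap.single ℂ (fun _ : Fin 7 => Lp j) 6

theorem augVec_apply (j : ℕ) (p : Lp j) : augVec j p = Cone.mk 0 (Pi.single 6 p) := rfl

/-- The generators lie in the part of the vertex `O2`. -/
theorem eV_smul_augVec (j : ℕ) (p : Lp j) : eV 4 • augVec j p = augVec j p := by
  rw [eV_smul_cone, augVec_apply]
  refine Cone.ext (smul_zero _) (funext fun r => Subtype.ext ?_)
  show ((eV 4 • (Pi.single 6 p : FL j)) r : Pol) = ((Pi.single 6 p : FL j) r : Pol)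
  rw [eV_smul]
  rcases eq_or_ne r 6 with rfl | h
  · simp [vx]
  · simp [Pi.single_eq_of_ne h]

/-- The orbit of a generator. -/
theorem hi_smul_augVec (j : ℕ) (g : A) (p : Lp j) (r : Fin 7) :
    ((g • augVec j p).hi r : Pol) = mPart g r 6 p := by
  rw [augVec_apply, Cone.hi_smul, Cone.hi_mk, Cone.lo_mk, smul_zero, zero_add, up_val,
    Finset.sum_eq_single 6 (fun k _ hk => by simp [Pi.single_eq_of_ne hk]) (by simp),
    Pi.single_eq_same]

/-- The orbit of a generator, lower part. -/
theorem lo_smul_augVec (j : ℕ) (g : A) (p : Lp j) (r : Fin 7) :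
    ((g • augVec j p).lo r : Pol) = bPart g r 6 p := by
  rw [augVec_apply, Cone.lo_smul, Cone.lo_mk, smul_val,
    Finset.sum_eq_single 6 (fun k _ hk => by simp [Pi.single_eq_of_ne hk]) (by simp),
    Pi.single_eq_same]

/-- The step of the orbit `Cone (j + 1) → V (j + 1) → Cone j`. -/
def stepHom (j : ℕ) : I (j + 1) ⟶ I j := projHom (j + 1) ≫ inclHom j

/-- The step moves the lower part up. -/
theorem stepHom_apply (j : ℕ) (z : Cone (j + 1)) : (stepHom j).hom z = Cone.mk z.lo 0 := rfl

/-- The part of `Cone j` at a vertex is the pair of parts of its summands. -/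
theorem mem_eX_cone {i : Fin 5} {j : ℕ} {z : Cone j} :
    z ∈ eX i (Cone j) ↔ z.hi ∈ eX i (FL (j + 1)) ∧ z.lo ∈ eX i (FL j) := by
  show eV i • z = z ↔ eV i • z.hi = z.hi ∧ eV i • z.lo = z.lo
  rw [eV_smul_cone, Cone.ext_iff]
  rfl

/-- The part of a sum of seven copies at a vertex consists of the vectors on its slots. -/
theorem mem_eX_FL {i : Fin 5} {j : ℕ} {f : FL j} :
    f ∈ eX i (FL j) ↔ ∀ r, vx r ≠ i → f r = 0 := by
  refine ⟨fun h r hr => Subtype.ext ?_, fun h => funext fun r => Subtype.ext ?_⟩
  · rw [show f = eV i • f from h.symm, eV_smul, if_neg hr]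
    rfl
  · show ((eV i • f) r : Pol) = f r
    rw [eV_smul]
    split_ifs with hr
    · rfl
    · rw [h r hr]
      rfl

/-- The generators as a map into the part of the vertex `O2`. -/
def augPart (j : ℕ) : Lp j →ₗ[ℂ] eX 4 (Cone j) :=
  (augVec j).codRestrict _ fun p => eV_smul_augVec j p

/-- The augmentation `A e_4 ⊗ (forms of degree j) → Cone j`. -/
def aug (j : ℕ) : Qm 4 (Lp j) →ₗ[A] Cone j := extend (augPart j)

theorem aug_tmul (j : ℕ) (g : col 4) (p : Lp j) :
    aug j (g ⊗ₜ[ℂ] p) = (g : A) • augVec j p := rfl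

/-- The upper part of the augmentation is the last column of the translation part. -/
theorem hi_aug_tmul (j : ℕ) (g : col 4) (p : Lp j) (r : Fin 7) :
    ((aug j (g ⊗ₜ[ℂ] p)).hi r : Pol) = mPart (g : A) r 6 p :=
  hi_smul_augVec j g p r

/-- The lower part of the augmentation is the last column of the degree-zero part. -/
theorem lo_aug_tmul (j : ℕ) (g : col 4) (p : Lp j) (r : Fin 7) :
    ((aug j (g ⊗ₜ[ℂ] p)).lo r : Pol) = bPart (g : A) r 6 p :=
  lo_smul_augVec j g p r

end Vale.Agent.P195.Model
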