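import Vale.Agent.P195.Model.Orbit
import Vale.Agent.P195.Model.Cplx
import Vale.Agent.P195.DualHom
import Mathlib.Algebra.Category.ModuleCat.Algebra
import Mathlib.RingTheory.MvPolynomial.Basic

/-!
P195: the module `V = FL 0` has simple socle at the vertex `O0`, spanned by the constants in slot
`0`.
-/

noncomputable section

namespace Vale.Agent.P195.Model

open Matrix MvPolynomial Weyl CategoryTheory Abelian
open scoped TensorProduct

attribute [local instance] ModuleCat.moduleOfAlgebraModule ModuleCat.isScalarTower_of_algebra_moduleCat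

/-- The constant in slot `0`. -/
def soc : FL 0 →ₗ[ℂ] ℂ where
  toFun f := coeff 0 (f 0 : Pol)
  map_add' f g := by simp
  map_smul' c f := by simp

theorem Lp_zero_eq (f : Lp 0) : (f : Pol) = C (coeff 0 (f : Pol)) := by
  refine totalDegree_eq_zero_iff_eq_C.mp ?_
  exact Nat.le_zero.mp (((mem_homogeneousSubmodule _ _).mp f.2).totalDegree_le)

theorem vx_eq_zero_iff (r : Fin 7) : vx r = 0 ↔ r = 0 := by
  fin_cases r <;> simp [vx]

theorem soc_eV (f : FL 0) : soc (eV 0 • f) = soc f := by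
  show coeff 0 ((eV 0 • f) 0 : Pol) = coeff 0 (f 0 : Pol)
  rw [eV_smul, if_pos (show vx 0 = 0 from rfl)]

/-- The socle vector. -/
def socVec : FL 0 := Pi.single 0 ⟨1, (mem_homogeneousSubmodule _ _).mpr (isHomogeneous_one _ _)⟩

theorem soc_socVec : soc socVec = 1 := by
  show coeff 0 ((socVec 0 : Lp 0) : Pol) = 1
  rw [socVec, Pi.single_eq_same]
  exact coeff_zero_one

theorem eV_zero_smul (f : FL 0) : eV 0 • f = soc f • eV 0 • socVec := by
  refine funext fun r => Subtype.ext ?_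
  rw [eV_smul, Pi.smul_apply, Submodule.coe_smul, eV_smul]
  by_cases hr : r = 0
  · subst hr
    rw [if_pos (show vx 0 = 0 from rfl), if_pos (show vx 0 = 0 from rfl), socVec, Pi.single_eq_same]
    conv_lhs => rw [Lp_zero_eq (f 0)]
    rw [smul_eq_C_mul, mul_one]
    rfl
  · have : vx r ≠ 0 := fun h => hr ((vx_eq_zero_iff r).mp h)
    rw [if_neg this, if_neg this, smul_zero]

/-- The unit matrix reading slot `r` at slot `0` preserves the lattices. -/
theorem single_mem_hom (r : Fin 7) : (Matrix.single 0 r (1 : Op)) ∈ hom 0 0 := by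
  refine mem_hom_iff.mpr fun g => ?_
  have hg : gen g ᵥ* Matrix.single 0 r (1 : Op) = Pi.single r (gen g 0) := by
    ext k
    rcases eq_or_ne k r with rfl | hk
    · simp [vecMul, dotProduct, Matrix.single, Finset.sum_ite_eq]
    · simp [vecMul, dotProduct, Matrix.single, hk, hk.symm]
  rw [hg]
  rcases gen_support g 0 with h0 | h0
  · rw [h0, Pi.single_zero]
    exact zero_mem _
  · have hg0 : g = 0 := by
      fin_cases g <;> first
        | rfl
        | exact absurd h0 (by decide)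
    subst hg0
    have e : Pi.single r (gen 0 0) = gen ⟨r, by omega⟩ := by
      fin_cases r <;> simp [gen]
    rw [e]
    have hw : gw ⟨r, by omega⟩ = gw 0 + 0 := by fin_cases r <;> rfl
    rw [← hw]
    exact lat_mono (by fin_cases r <;> simp [gn]) (gen_mem _)

/-- No nonzero vector is invisible to the functional. -/
theorem soc_separates (f : FL 0) (hf : f ≠ 0) : ∃ a : A, soc (a • f) ≠ 0 := by
  obtain ⟨r, hr⟩ := Function.ne_iff.mp hf
  refine ⟨mk ⟨_, single_mem_hom r⟩ 0, fun h => hr (Subtype.ext ?_)⟩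
  have h' : coeff 0 ((mk ⟨_, single_mem_hom r⟩ 0 • f) 0 : Pol) = 0 := h
  rw [smul_val, Finset.sum_eq_single r (fun k _ hk => by simp [Matrix.single, hk.symm]) (by simp)]
    at h'
  simp only [bPart_mk, Matrix.single_apply_same, Module.End.one_apply] at h'
  show (f r : Pol) = 0
  rw [Lp_zero_eq (f r), h', map_zero]

theorem Lp_finite (j : ℕ) : Module.Finite ℂ (Lp j) := by
  have : (Lp j : Submodule ℂ Pol) ≤ restrictTotalDegree (Fin 2) ℂ j := fun f hf =>
    (mem_restrictTotalDegree _ _ f).mpr ((mem_homogeneousSubmodule _ _).mp hf).totalDegree_le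
  exact Submodule.finiteDimensional_of_le this

instance : Module.Finite ℂ (Lp 0) := Lp_finite 0

/-- The columns are finitely generated. -/
instance Qm_finite (k : Fin 5) (W : Type*) [AddCommGroup W] [Module ℂ W] [Module.Finite ℂ W] :
    Module.Finite A (Qm k W) := by
  obtain ⟨n, p, hp⟩ := Module.Finite.exists_fin' ℂ W
  refine Module.Finite.of_surjective (Fintype.linearCombination A
    (fun i : Fin n => gE k ⊗ₜ[ℂ] p (Pi.single i 1))) fun z => ?_
  induction z using TensorProduct.induction_on with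
  | zero => exact ⟨0, map_zero _⟩
  | add z z' hz hz' =>
    obtain ⟨c, rfl⟩ := hz
    obtain ⟨c', rfl⟩ := hz'
    exact ⟨c + c', map_add _ _ _⟩
  | tmul g w =>
    obtain ⟨x, rfl⟩ := hp w
    refine ⟨fun i => x i • (g : A), ?_⟩
    conv_rhs => rw [← Finset.univ_sum_single x, map_sum, TensorProduct.tmul_sum]
    rw [Fintype.linearCombination_apply]
    refine Finset.sum_congr rfl fun i _ => ?_
    rw [TensorProduct.smul_tmul', smul_assoc, smul_gE, TensorProduct.smul_tmul, ← map_smul]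
    congr 2
    rw [← Pi.single_smul, smul_eq_mul, mul_one]

/-- The element `1` of the forms of degree zero. -/
def one₀ : Lp 0 := ⟨1, (mem_homogeneousSubmodule _ _).mpr (isHomogeneous_one _ _)⟩

/-- Every element of `e₀ A` is the value at the generator of a map out of `A e₀ ⊗ W₃`. -/
theorem exists_hom_gE (x : A) (hx : eV 0 * x = x) :
    ∃ φ : Qm 0 (Lp 0) →ₗ[A] A, φ (gE 0 ⊗ₜ[ℂ] one₀) = x := by
  let z : eX 0 A := ⟨x, hx⟩
  let ψ : Lp 0 →ₗ[ℂ] eX 0 A :=
    { toFun := fun w => coeff 0 (w : Pol) • z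
      map_add' := fun w w' => by simp [add_smul]
      map_smul' := fun c w => by simp [mul_smul] }
  refine ⟨extend ψ, ?_⟩
  rw [extend_tmul]
  show eV 0 • ((coeff 0 (1 : Pol)) • x : A) = x
  rw [coeff_zero_one, one_smul, smul_eq_mul, hx]

/-- The module `V`. -/
def Vm : ModuleCat.{0} A := ModuleCat.of A (FL 0)

theorem Vm_smul (c : ℂ) (m : Vm) : (c • m : Vm) = algebraMap ℂ A c • m := rfl

/-- The functional on the socle, on `V`. -/
def socM : Vm →ₗ[ℂ] ℂ where
  toFun m := soc m
  map_add' m m' := soc.map_add m m'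
  map_smul' c m := by
    have h : ∀ f : FL 0, soc (algebraMap ℂ A c • f) = c * soc f := fun f => by
      rw [algebraMap_smul, map_smul, smul_eq_mul]
    rw [Vm_smul]
    exact h m

theorem socM_apply (m : Vm) : socM m = soc (m : FL 0) := rfl

theorem socM_eV (m : Vm) : socM (eV 0 • m) = socM m := soc_eV m

/-- The socle vector, in `V`. -/
def socVecM : Vm := socVec

theorem socM_socVec : socM socVecM = 1 := soc_socVec

theorem socM_dim (m : Vm) : eV 0 • m = socM m • eV 0 • socVecM := by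
  rw [Vm_smul]
  have h : ∀ f : FL 0, eV 0 • f = algebraMap ℂ A (soc f) • eV 0 • socVec := fun f => by
    rw [algebraMap_smul]
    exact eV_zero_smul f
  exact h m

theorem socM_separates (m : Vm) (hm : m ≠ 0) : ∃ a : A, socM (a • m) ≠ 0 := soc_separates m hm

theorem Vm_finite : Module.Finite ℂ Vm := by
  have : Module.Finite A Vm := Module.Finite.of_restrictScalars_finite ℂ A (FL 0)
  exact Module.Finite.trans A Vm

/-- An element of `A` pairs to zero with `V` exactly when its degree-zero part, read in the row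
of `O0`, kills the constants in every slot. -/
theorem socM_smul_eq_zero_iff (a : A) :
    (∀ m : Vm, socM (a • m) = 0) ↔ ∀ k : Fin 7, coeff 0 (bPart a 0 k (1 : Pol)) = 0 := by
  have key : ∀ f : FL 0, soc (a • f) = ∑ k, coeff 0 (f k : Pol) * coeff 0 (bPart a 0 k (1 : Pol)) :=
    fun f => by
      show coeff 0 ((a • f) 0 : Pol) = _
      rw [smul_val, coeff_sum]
      refine Finset.sum_congr rfl fun k _ => ?_
      conv_lhs => rw [Lp_zero_eq (f k), ← mul_one (C (coeff 0 (f k : Pol))), ← smul_eq_C_mul,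
        map_smul, coeff_smul, smul_eq_mul]
  constructor
  · intro h k
    have h' : soc (a • (Pi.single k one₀ : FL 0)) = 0 := h _
    rw [key, Finset.sum_eq_single k (fun l _ hl => by simp [Pi.single_eq_of_ne hl]) (by simp),
      Pi.single_eq_same] at h'
    have h1 : coeff 0 ((one₀ : Lp 0) : Pol) = 1 := coeff_zero_one
    rwa [h1, one_mul] at h'
  · intro h m
    have h' : ∀ f : FL 0, soc (a • f) = 0 := fun f => by
      rw [key]
      exact Finset.sum_eq_zero fun k _ => by rw [h k, mul_zero]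
    exact h' m

variable {Q₃ : Type} [AddCommGroup Q₃] [Module A Q₃]

/-- The pairing of the top cochains with `V`, through the functional on the socle. -/
def envPair (q : Q₃) : (Q₃ →ₗ[A] A) →ₗ[ℂ] Vm →ₗ[ℂ] ℂ :=
  LinearMap.mk₂ ℂ (fun φ m => socM (φ q • m))
    (fun φ ψ m => by rw [LinearMap.add_apply, add_smul, map_add])
    (fun c φ m => by
      rw [LinearMap.smul_apply, smul_assoc, map_smul])
    (fun φ m m' => by rw [smul_add, map_add])
    (fun c φ m => by rw [smul_comm, map_smul])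

theorem envPair_apply (q : Q₃) (φ : Q₃ →ₗ[A] A) (m : Vm) :
    envPair q φ m = socM (φ q • m) := rfl

theorem envPair_mulHom (q : Q₃) (φ : Q₃ →ₗ[A] A) (a : A) (m : Vm) :
    envPair q (mulHom φ a) m = envPair q φ (a • m) := by
  rw [envPair_apply, envPair_apply, mulHom_apply, mul_smul]

theorem envPair_separates (q : Q₃) (hgen : ∀ x : A, eV 0 * x = x → ∃ φ : Q₃ →ₗ[A] A, φ q = x)
    (m : Vm) (hm : m ≠ 0) : ∃ φ, envPair q φ m ≠ 0 := by
  obtain ⟨a, ha⟩ := socM_separates m hm
  obtain ⟨φ, hφ⟩ := hgen (eV 0 * a) (by rw [← mul_assoc, eV_idem])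
  refine ⟨φ, ?_⟩
  rw [envPair_apply, hφ, mul_smul, socM_eV]
  exact ha

theorem envPair_eq_zero_iff (q : Q₃) (φ : Q₃ →ₗ[A] A) :
    envPair q φ = 0 ↔ ∀ m : Vm, socM (φ q • m) = 0 :=
  ⟨fun h m => by rw [← envPair_apply, h]; rfl, fun h => LinearMap.ext h⟩

/-- No extensions in degree four and above into `V`, from the cochains of the resolution at
`j = 0` with values in `A`. -/
theorem hW_of_cochains {Q₀ Q₁ Q₂ : Type} [AddCommGroup Q₀] [Module A Q₀] [Module.Projective A Q₀]
    [Module.Finite A Q₀] [AddCommGroup Q₁] [Module A Q₁] [Module.Projective A Q₁]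
    [Module.Finite A Q₁] [AddCommGroup Q₂] [Module A Q₂] [Module.Projective A Q₂]
    [Module.Finite A Q₂] [Module.Projective A Q₃] [Module.Finite A Q₃] (q : Q₃)
    (hgen : ∀ x : A, eV 0 * x = x → ∃ φ : Q₃ →ₗ[A] A, φ q = x)
    (d₁ : Q₁ →ₗ[A] Q₀) (d₂ : Q₂ →ₗ[A] Q₁) (d₃ : Q₃ →ₗ[A] Q₂)
    (hd₁ : d₁.comp d₂ = 0) (hd₂ : d₂.comp d₃ = 0)
    (deg₀ : ∀ φ : Q₀ →ₗ[A] A, φ.comp d₁ = 0 → φ = 0)
    (deg₁ : ∀ φ : Q₁ →ₗ[A] A, φ.comp d₂ = 0 → ∃ ψ : Q₀ →ₗ[A] A, ψ.comp d₁ = φ)
    (deg₂ : ∀ φ : Q₂ →ₗ[A] A, φ.comp d₃ = 0 → ∃ ψ : Q₁ →ₗ[A] A, ψ.comp d₂ = φ)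
    (hker : ∀ φ : Q₃ →ₗ[A] A, (∀ m : Vm, socM (φ q • m) = 0) ↔
      ∃ ψ : Q₂ →ₗ[A] A, ψ.comp d₃ = φ)
    (X : ModuleCat.{0} A) (n : ℕ) (hn : 4 ≤ n) :
    Subsingleton (Ext X Vm n) := by
  have := Vm_finite
  exact ext_eq_zero_of_cochain_exact (k := ℂ) (V := Vm) d₁ d₂ d₃ hd₁ hd₂ deg₀ deg₁ deg₂
    (envPair q) (envPair_mulHom q) (envPair_separates q hgen)
    (fun φ => (envPair_eq_zero_iff q φ).trans (hker φ)) X n hn

end Vale.Agent.P195.Model
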