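import Vale.Agent.P195.Model.PartMaps
import Vale.Agent.P195.Exact.Vert
import Vale.Agent.P195.Exact.Sym

/-!
P195: the parts of the terms of the resolution as seven rows of coefficient families.
-/

noncomputable section

namespace Vale.Agent.P195.Model

open Weyl MvPolynomial
open scoped TensorProduct
open Exact (Fam PH PQ lmF lmH lmQ δ₁ δ₂ δ₃ C₀ C₁ C₂ C₃ Vert evS)

/-- The coefficient families of the entries at one slot. -/
def famAt {k : Fin 5} {s t : ℤ} (S : Submodule ℂ Pol) (c : Fin 7) :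
    colsAt k s t ⊗[ℂ] S →ₗ[ℂ] (Fin 7 → Fam) :=
  TensorProduct.lift <| LinearMap.mk₂ ℂ
    (fun M w r p => coeff p (w : Pol) • (M : Mat) r c)
    (fun M M' w => funext fun r => funext fun p => smul_add _ _ _)
    (fun z M w => funext fun r => funext fun p => smul_comm _ z _)
    (fun M w w' => funext fun r => funext fun p => by simp [add_smul])
    (fun z M w => funext fun r => funext fun p => by simp [smul_smul])

theorem famAt_tmul {k : Fin 5} {s t : ℤ} (S : Submodule ℂ Pol) (c : Fin 7) (M : colsAt k s t)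
    (w : S) (r : Fin 7) (p : Exp) :
    famAt S c (M ⊗ₜ[ℂ] w) r p = coeff p (w : Pol) • (M : Mat) r c := rfl

/-! ### Monomials -/

/-- `S` consists of the polynomials with exponents in `F`. -/
def SuppIn (S : Submodule ℂ Pol) (F : Finset Exp) : Prop :=
  ∀ f : Pol, f ∈ S ↔ ∀ p, p ∉ F → coeff p f = 0

theorem suppIn_Lp (j : ℕ) : SuppIn (Lp j) (Exact.expOf j) := fun f => by
  rw [mem_homogeneousSubmodule]
  refine ⟨fun h p hp => h.coeff_eq_zero (fun e => hp (Exact.mem_expOf.2 e)), fun h p hp => ?_⟩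
  by_contra hne
  refine hp (h p fun hmem => hne ?_)
  exact (congrArg (· p) Finsupp.degree_eq_weight_one).symm.trans (Exact.mem_expOf.1 hmem)

/-- Exponents of degree `j - 1`. -/
def expDown (j : ℕ) : Finset Exp := (Exact.expOf (j - 1)).filter fun p => p.degree + 1 = j

theorem mem_expDown {j : ℕ} {p : Exp} : p ∈ expDown j ↔ p.degree + 1 = j := by
  rw [expDown, Finset.mem_filter, Exact.mem_expOf]
  omega

theorem suppIn_Lm : ∀ j : ℕ, SuppIn (Lm j) (expDown j)
  | 0 => fun f => by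
    refine ⟨fun h p _ => by rw [(Submodule.mem_bot ℂ).1 h, coeff_zero], fun h => ?_⟩
    exact (Submodule.mem_bot ℂ).2 (MvPolynomial.ext _ _ fun p => by
      rw [coeff_zero]; exact h p (fun hp => by simpa using mem_expDown.1 hp))
  | j + 1 => fun f => by
    refine (suppIn_Lp j f).trans ?_
    have e : ∀ p : Exp, p ∈ Exact.expOf j ↔ p ∈ expDown (j + 1) := fun p => by
      rw [Exact.mem_expOf, mem_expDown]; omega
    simp only [e]

theorem SuppIn.monomial_mem {S : Submodule ℂ Pol} {F : Finset Exp} (h : SuppIn S F) {p : Exp}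
    (hp : p ∈ F) : monomial p (1 : ℂ) ∈ S :=
  (h _).2 fun q hq => by
    rw [coeff_monomial, if_neg]
    rintro rfl
    exact hq hp

theorem SuppIn.sum_eq {S : Submodule ℂ Pol} {F : Finset Exp} (h : SuppIn S F) (w : S) :
    (w : Pol) = ∑ p ∈ F, coeff p (w : Pol) • monomial p (1 : ℂ) := by
  ext q
  simp only [coeff_sum, coeff_smul, coeff_monomial, smul_eq_mul, mul_ite, mul_one, mul_zero,
    Finset.sum_ite_eq']
  split_ifs with hq
  · rfl
  · exact (h _).1 w.2 q hq

/-- The matrix coefficient of an exponent. -/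
def coefP {k : Fin 5} {s t : ℤ} (S : Submodule ℂ Pol) (p : Exp) :
    colsAt k s t ⊗[ℂ] S →ₗ[ℂ] colsAt k s t :=
  (TensorProduct.rid ℂ (colsAt k s t)).toLinearMap ∘ₗ
    TensorProduct.map LinearMap.id (lcoeff ℂ p ∘ₗ S.subtype)

section General

variable {k : Fin 5} {s t : ℤ} {S S' : Submodule ℂ Pol} {F : Finset Exp}

theorem coefP_tmul (p : Exp) (M : colsAt k s t) (w : S) :
    coefP S p (M ⊗ₜ[ℂ] w) = coeff p (w : Pol) • M := by
  simp [coefP]

theorem famAt_eq_coefP (z : colsAt k s t ⊗[ℂ] S) (c r : Fin 7) (p : Exp) :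
    famAt S c z r p = (coefP S p z : Mat) r c := by
  induction z using TensorProduct.induction_on with
  | zero => simp
  | add z z' hz hz' => simp [hz, hz']
  | tmul M w => simp [famAt_tmul, coefP_tmul]

theorem SuppIn.coefP_eq_zero (h : SuppIn S F) {p : Exp} (hp : p ∉ F)
    (z : colsAt k s t ⊗[ℂ] S) : coefP S p z = 0 := by
  induction z using TensorProduct.induction_on with
  | zero => simp
  | add z z' hz hz' => simp [hz, hz']
  | tmul M w => rw [coefP_tmul, (h _).1 w.2 p hp, zero_smul]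

theorem SuppIn.famAt_eq_zero (h : SuppIn S F) {p : Exp} (hp : p ∉ F)
    (z : colsAt k s t ⊗[ℂ] S) (c r : Fin 7) : famAt S c z r p = 0 := by
  rw [famAt_eq_coefP, h.coefP_eq_zero hp]
  simp

theorem SuppIn.tensor_eq (h : SuppIn S F) (z : colsAt k s t ⊗[ℂ] S) :
    z = ∑ p ∈ F.attach, coefP S p.1 z ⊗ₜ[ℂ] (⟨monomial p.1 1, h.monomial_mem p.2⟩ : S) := by
  induction z using TensorProduct.induction_on with
  | zero => simp
  | add z z' hz hz' =>
    simp only [map_add, TensorProduct.add_tmul, Finset.sum_add_distrib]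
    exact congrArg₂ (· + ·) hz hz'
  | tmul M w =>
    simp only [coefP_tmul, TensorProduct.smul_tmul, ← TensorProduct.tmul_sum]
    refine congrArg (M ⊗ₜ[ℂ] ·) (Subtype.ext ?_)
    rw [AddSubmonoidClass.coe_finsetSum]
    simp only [Submodule.coe_smul]
    rw [Finset.sum_attach F fun p => coeff p (w : Pol) • monomial p (1 : ℂ)]
    exact h.sum_eq w

theorem colsAt_apply_eq_zero (M : colsAt k s t) {r c : Fin 7} (hc : vx c ≠ k) :
    (M : Mat) r c = 0 := by
  rw [← (mem_colsAt.1 M.2).2, vproj, Matrix.mul_diagonal, if_neg hc, mul_zero]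

theorem SuppIn.ext (h : SuppIn S F) {z z' : colsAt k s t ⊗[ℂ] S}
    (hz : ∀ c, vx c = k → famAt S c z = famAt S c z') : z = z' := by
  rw [h.tensor_eq z, h.tensor_eq z']
  refine Finset.sum_congr rfl fun p _ => ?_
  rw [show coefP S p.1 z = coefP S p.1 z' from Subtype.ext (Matrix.ext fun r c => ?_)]
  by_cases hc : vx c = k
  · rw [← famAt_eq_coefP, ← famAt_eq_coefP, hz c hc]
  · rw [colsAt_apply_eq_zero _ hc, colsAt_apply_eq_zero _ hc]

/-- The combinations of the rows of the coefficient matrices are lattice rows of the vertex. -/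
theorem comb_famAt_mem (z : colsAt k s t ⊗[ℂ] S) (g : Fin 9) (p : Exp) :
    (fun c => ∑ r, gen g r * famAt S c z r p) ∈ lat (gw g + s) (gn g + t) := by
  simp only [famAt_eq_coefP]
  exact mem_hom_iff.1 (mem_colsAt.1 (coefP S p z).2).1 g

/-- Every admissible array of families comes from the tensor product. -/
theorem SuppIn.exists_of_array (h : SuppIn S F) (U : Fin 7 → Fin 7 → Fam)
    (hk : ∀ r c, vx c ≠ k → U r c = 0) (hF : ∀ r c p, p ∉ F → U r c p = 0)
    (hlat : ∀ g p, (fun c => ∑ r, gen g r * U r c p) ∈ lat (gw g + s) (gn g + t)) :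
    ∃ z : colsAt k s t ⊗[ℂ] S, ∀ c r, famAt S c z r = U r c := by
  have hM : ∀ p, (Matrix.of fun r c => U r c p) ∈ colsAt k s t := fun p => by
    refine mem_colsAt.2 ⟨mem_hom_iff.2 fun g => hlat g p, Matrix.ext fun r c => ?_⟩
    rw [vproj, Matrix.mul_diagonal]
    split_ifs with hc
    · rw [mul_one]
    · simp [hk r c hc]
  refine ⟨∑ p ∈ F.attach, (⟨_, hM p.1⟩ : colsAt k s t) ⊗ₜ[ℂ]
    (⟨monomial p.1 1, h.monomial_mem p.2⟩ : S), fun c r => funext fun q => ?_⟩
  rw [map_sum, Finset.sum_apply, Finset.sum_apply]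
  simp only [famAt_tmul, coeff_monomial, Matrix.of_apply]
  rw [Finset.sum_attach F fun p => (if p = q then (1 : ℂ) else 0) • U r c p]
  simp only [ite_smul, one_smul, zero_smul, Finset.sum_ite_eq']
  split_ifs with hq
  · rfl
  · exact (hF r c q hq).symm

/-- The generator of a slot. -/
theorem gen_slot (r : Fin 7) : gen (Fin.castLE (by norm_num) r) = Pi.single r 1 := by
  fin_cases r <;> rfl

theorem sum_gen_slot (r : Fin 7) (a : Fin 7 → Op) :
    ∑ r', gen (Fin.castLE (by norm_num) r) r' * a r' = a r := by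
  simp [gen_slot, Pi.single_apply]

end General

/-! ### Rows at one vertex -/

/-- A vertex with the single slot `c`, of level offset `e`. -/
def OneSlot (k : Fin 5) (c : Fin 7) (e : ℤ) : Prop :=
  vx c = k ∧ (∀ c', vx c' = k → c' = c) ∧
    ∀ (w n : ℤ) (R : Row), (∀ c', c' ≠ c → R c' = 0) → (R ∈ lat w n ↔ R c ∈ fil w (n + e))

theorem oneSlot_zero : OneSlot 0 0 0 :=
  ⟨rfl, by decide, fun w n R h => by
    rw [Exact.mem_lat_iff, h 1 (by decide), h 2 (by decide), h 3 (by decide), h 4 (by decide),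
      h 5 (by decide), h 6 (by decide), Prod.mk_zero_zero]
    simp⟩

theorem oneSlot_three : OneSlot 3 5 1 :=
  ⟨rfl, by decide, fun w n R h => by
    rw [Exact.mem_lat_iff, h 0 (by decide), h 1 (by decide), h 2 (by decide), h 3 (by decide),
      h 4 (by decide), h 6 (by decide), Prod.mk_zero_zero]
    simp⟩

theorem oneSlot_four : OneSlot 4 6 2 :=
  ⟨rfl, by decide, fun w n R h => by
    rw [Exact.mem_lat_iff, h 0 (by decide), h 1 (by decide), h 2 (by decide), h 3 (by decide),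
      h 4 (by decide), h 5 (by decide), Prod.mk_zero_zero]
    simp⟩

theorem famAt_eq_zero_of_ne {k : Fin 5} {s t : ℤ} {S : Submodule ℂ Pol}
    (z : colsAt k s t ⊗[ℂ] S) {c : Fin 7} (hc : vx c ≠ k) : famAt S c z = 0 :=
  funext fun r => funext fun p => by rw [famAt_eq_coefP, colsAt_apply_eq_zero _ hc]; rfl

theorem OneSlot.injective {k : Fin 5} {c : Fin 7} {e : ℤ} (hk : OneSlot k c e) {s t : ℤ} (j : ℕ) :
    Function.Injective (famAt (k := k) (s := s) (t := t) (Lp j) c) :=
  fun z z' hz => (suppIn_Lp j).ext fun c' hc' => by rw [hk.2.1 c' hc', hz]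

theorem OneSlot.range {k : Fin 5} {c : Fin 7} {e : ℤ} (hk : OneSlot k c e) (j : ℕ) (s t : ℤ)
    (C : ℤ → ℤ → Submodule ℂ Fam)
    (hC : ∀ w n, C w n = Exact.forms Op j ⊓ Exact.valued (fil w (n + e))) :
    LinearMap.range (famAt (k := k) (s := s) (t := t) (Lp j) c) = Vert lmF C s t := by
  ext U
  simp only [Exact.mem_Vert, hC, Submodule.mem_inf, Exact.mem_valued, Finset.sum_apply,
    Exact.lmF_apply]
  constructor
  · rintro ⟨z, rfl⟩ g
    refine ⟨fun p hp => ?_, fun p => ?_⟩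
    · rw [Finset.sum_apply]
      exact Finset.sum_eq_zero fun r _ => by
        rw [Exact.lmF_apply, (suppIn_Lp j).famAt_eq_zero (fun h => hp (Exact.mem_expOf.1 h)),
          mul_zero]
    · refine (hk.2.2 _ _ _ fun c' hc' => ?_).1 (comb_famAt_mem z g p)
      refine Finset.sum_eq_zero fun r _ => ?_
      rw [famAt_eq_zero_of_ne z fun h => hc' (hk.2.1 c' h)]
      simp
  · intro h
    obtain ⟨z, hz⟩ := (suppIn_Lp j).exists_of_array (k := k) (s := s) (t := t)
      (fun r c' => if c' = c then U r else 0)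
      (fun r c' hc' => if_neg fun (e : c' = c) => hc' (e ▸ hk.1))
      (fun r c' p hp => by
        split_ifs
        · have := (h (Fin.castLE (by norm_num) r)).1 p fun e => hp (Exact.mem_expOf.2 e)
          rwa [Finset.sum_apply, Finset.sum_congr rfl fun r' _ => Exact.lmF_apply _ _ p,
            sum_gen_slot r fun r' => U r' p] at this
        · rfl)
      (fun g p => (hk.2.2 _ _ _ fun c' hc' => by simp [hc']).2 (by simpa using (h g).2 p))
    exact ⟨z, funext fun r => by rw [hz c r, if_pos rfl]⟩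

/-- A vertex with the two slots `σ 0, σ 1`, of lattice `L`. -/
def TwoSlot (k : Fin 5) (σ : Fin 2 → Fin 7) (L : ℤ → ℤ → Submodule ℂ (Op × Op)) : Prop :=
  σ 0 ≠ σ 1 ∧ (∀ l, vx (σ l) = k) ∧ (∀ c', vx c' = k → c' = σ 0 ∨ c' = σ 1) ∧
    ∀ (w n : ℤ) (R : Row), (∀ c', c' ≠ σ 0 → c' ≠ σ 1 → R c' = 0) →
      (R ∈ lat w n ↔ (R (σ 0), R (σ 1)) ∈ L w n)

theorem twoSlot_one : TwoSlot 1 sP Exact.latD :=
  ⟨by decide, by decide, by decide, fun w n R h => by
    rw [Exact.mem_lat_iff, h 0 (by decide) (by decide), h 3 (by decide) (by decide),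
      h 4 (by decide) (by decide), h 5 (by decide) (by decide), h 6 (by decide) (by decide),
      Prod.mk_zero_zero]
    simp [sP]⟩

theorem twoSlot_two : TwoSlot 2 sM Exact.latX :=
  ⟨by decide, by decide, by decide, fun w n R h => by
    rw [Exact.mem_lat_iff, h 0 (by decide) (by decide), h 1 (by decide) (by decide),
      h 2 (by decide) (by decide), h 5 (by decide) (by decide), h 6 (by decide) (by decide),
      Prod.mk_zero_zero]
    simp [sM]⟩

section Two

variable {k : Fin 5} {σ : Fin 2 → Fin 7} {L : ℤ → ℤ → Submodule ℂ (Op × Op)} {s t : ℤ}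
  {S : Submodule ℂ Pol} {F : Finset Exp}

theorem TwoSlot.ext (hk : TwoSlot k σ L) (h : SuppIn S F) {z z' : colsAt k s t ⊗[ℂ] S}
    (hz : ∀ l, famAt S (σ l) z = famAt S (σ l) z') : z = z' :=
  h.ext fun c hc => by rcases hk.2.2.1 c hc with rfl | rfl <;> apply hz

theorem TwoSlot.comb_mem (hk : TwoSlot k σ L) (z : colsAt k s t ⊗[ℂ] S) (g : Fin 9) (p : Exp) :
    (∑ r, gen g r * famAt S (σ 0) z r p, ∑ r, gen g r * famAt S (σ 1) z r p) ∈
      L (gw g + s) (gn g + t) := by
  refine (hk.2.2.2 _ _ _ fun c' h0 h1 => Finset.sum_eq_zero fun r _ => ?_).1 (comb_famAt_mem z g p)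
  rw [famAt_eq_zero_of_ne z fun h => (hk.2.2.1 c' h).elim h0 h1]
  simp

theorem TwoSlot.exists_of_pair (hk : TwoSlot k σ L) (h : SuppIn S F) (U : Fin 7 → Fin 2 → Fam)
    (hF : ∀ r l p, p ∉ F → U r l p = 0)
    (hL : ∀ g p, (∑ r, gen g r * U r 0 p, ∑ r, gen g r * U r 1 p) ∈ L (gw g + s) (gn g + t)) :
    ∃ z : colsAt k s t ⊗[ℂ] S, ∀ l r, famAt S (σ l) z r = U r l := by
  obtain ⟨z, hz⟩ := h.exists_of_array (k := k) (s := s) (t := t)
    (fun r c' => if c' = σ 0 then U r 0 else if c' = σ 1 then U r 1 else 0)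
    (fun r c' hc' => by
      rw [if_neg fun (e : c' = σ 0) => hc' (e ▸ hk.2.1 0),
        if_neg fun (e : c' = σ 1) => hc' (e ▸ hk.2.1 1)])
    (fun r c' p hp => by split_ifs <;> first | exact hF r _ p hp | rfl)
    (fun g p => (hk.2.2.2 _ _ _ fun c' h0 h1 => by simp [h0, h1]).2
      (by simpa [hk.1.symm] using hL g p))
  refine ⟨z, fun l r => ?_⟩
  rw [hz (σ l) r]
  fin_cases l <;> simp [hk.1.symm]

end Two

/-! ### The action of maps -/

section Maps

variable {k l : Fin 5} {s t : ℤ} {S S' : Submodule ℂ Pol}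
  {W W' : Type*} [AddCommGroup W] [Module ℂ W] [AddCommGroup W'] [Module ℂ W']

theorem mp_comp {M : Mat} (hM : M ∈ hom 0 0) (hs : Sup k l M) (T : W →ₗ[ℂ] W') {S : Type*}
    [AddCommGroup S] [Module ℂ S] (T' : W' →ₗ[ℂ] S) (z : colsAt k s t ⊗[ℂ] W) :
    TensorProduct.map LinearMap.id T' (mp hM hs T z) = mp hM hs (T' ∘ₗ T) z := by
  induction z using TensorProduct.induction_on with
  | zero => simp
  | add z z' hz hz' => simp [hz, hz']
  | tmul M' w => rfl

theorem famAt_mp {M : Mat} (hM : M ∈ hom 0 0) (hs : Sup k l M) (T : W →ₗ[ℂ] S') (c r : Fin 7)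
    (z : colsAt k s t ⊗[ℂ] W) :
    famAt S' c (mp hM hs T z) r =
      ∑ c', Exact.rm (M c' c) (famAt S' c' (TensorProduct.map LinearMap.id T z) r) := by
  funext p
  induction z using TensorProduct.induction_on with
  | zero => simp [Exact.rm_apply]
  | add z z' hz hz' =>
    simp only [map_add, Pi.add_apply, Finset.sum_apply, Exact.rm_apply, add_mul,
      Finset.sum_add_distrib] at hz hz' ⊢
    rw [hz, hz']
  | tmul M' w =>
    simp only [mp, TensorProduct.map_tmul, famAt_tmul, Finset.sum_apply, Exact.rm_apply,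
      LinearMap.id_apply, smul_mul_assoc, ← Finset.smul_sum]
    rfl

theorem famAt_map_neg {W : Type*} [AddCommGroup W] [Module ℂ W] (u : ℂ) (T : W →ₗ[ℂ] S')
    (c r : Fin 7) (z : colsAt k s t ⊗[ℂ] W) :
    famAt S' c (TensorProduct.map LinearMap.id (u • T) z) r =
      u • famAt S' c (TensorProduct.map LinearMap.id T z) r := by
  simp [TensorProduct.map_smul_right]

theorem famAt_map_d (T : S →ₗ[ℂ] S') (a : Fin 2) (hT : ∀ w, (T w : Pol) = d a (w : Pol))
    (c r : Fin 7) (z : colsAt k s t ⊗[ℂ] S) :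
    famAt S' c (TensorProduct.map LinearMap.id T z) r = Exact.dd a (famAt S c z r) := by
  induction z using TensorProduct.induction_on with
  | zero => simp
  | add z z' hz hz' => simp [hz, hz']
  | tmul M w =>
    funext p
    simp only [TensorProduct.map_tmul, LinearMap.id_apply, Exact.dd_apply, famAt_tmul, hT,
      d_apply, coeff_pderiv, smul_smul]
    rw [mul_comm]

theorem famAt_map_x (T : S →ₗ[ℂ] S') (a : Fin 2) (hT : ∀ w, (T w : Pol) = x a (w : Pol))
    (c r : Fin 7) (z : colsAt k s t ⊗[ℂ] S) :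
    famAt S' c (TensorProduct.map LinearMap.id T z) r = Exact.xx a (famAt S c z r) := by
  induction z using TensorProduct.induction_on with
  | zero => simp
  | add z z' hz hz' => simp [hz, hz']
  | tmul M w =>
    funext p
    simp only [TensorProduct.map_tmul, LinearMap.id_apply, Exact.xx_apply, famAt_tmul, hT,
      x_apply, coeff_X_mul', Finsupp.mem_support_iff, ite_not]
    split_ifs <;> simp

end Maps

theorem mBm_entry (k l : Fin 2) : mBm k (sM l) 5 = Exact.xRot l * Exact.dRot k := by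
  fin_cases k <;> fin_cases l <;>
    simp [mBm, sM, Maps.E, Maps.a, Maps.δ, Exact.xRot, Exact.dRot, Matrix.sum_apply,
      Exact.neg_mul_op, Exact.mul_neg_op]

theorem mBp_entry (i l : Fin 2) : mBp i (sP l) 5 = Exact.dRot l * Exact.xRot i := by
  fin_cases i <;> fin_cases l <;>
    simp [mBp, sP, Maps.E, Maps.a, Maps.δ, Exact.xRot, Exact.dRot, Matrix.sum_apply,
      Exact.neg_mul_op, Exact.mul_neg_op, d_x_self, d_x_ne] <;> abel

theorem pr_comp_inW (j : ℕ) (i k i' k' : Fin 2) :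
    pr j i k ∘ₗ inW j i' k' = if i' = i ∧ k' = k then LinearMap.id else 0 := by
  refine LinearMap.ext fun w => ?_
  fin_cases i <;> fin_cases k <;> fin_cases i' <;> fin_cases k' <;> simp [pr, inW]

theorem rm_zero_left (U : Fam) : Exact.rm (0 : Op) U = 0 := funext fun _ => mul_zero _

section Cols

variable {j : ℕ} {s t : ℤ} {W : Type*} [AddCommGroup W] [Module ℂ W] {S : Submodule ℂ Pol}
  (T : W →ₗ[ℂ] S) (r : Fin 7)

theorem famAt_A (i k : Fin 2) (z : colsAt 3 s t ⊗[ℂ] W) :
    famAt S 6 (mp (hom_A i k) (sup_A i k) T z) r =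
      Exact.rm (x i * d k) (famAt S 5 (TensorProduct.map LinearMap.id T z) r) := by
  rw [famAt_mp, Fin.sum_univ_seven]
  simp [mA, Maps.a, rm_zero_left]

theorem famAt_J (z : colsAt 3 s t ⊗[ℂ] W) :
    famAt S 6 (mp hom_J sup_J T z) r = famAt S 5 (TensorProduct.map LinearMap.id T z) r := by
  rw [famAt_mp, Fin.sum_univ_seven]
  simp [mJ, rm_zero_left, Exact.om_one]

theorem famAt_Bp (i : Fin 2) (z : colsAt 1 s t ⊗[ℂ] W) :
    famAt S 5 (mp (hom_Bp i) (sup_Bp i) T z) r =
      Exact.rm (Exact.xRot i) (∑ l, Exact.rm (Exact.dRot l)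
        (famAt S (sP l) (TensorProduct.map LinearMap.id T z) r)) := by
  have h : ∀ c, c ≠ 1 → c ≠ 2 → mBp i c 5 = 0 := fun c h1 h2 => by
    simp [mBp, sP, Matrix.sum_apply, h1.symm, h2.symm]
  have h1 : mBp i 1 5 = _ := mBp_entry i 0
  have h2 : mBp i 2 5 = _ := mBp_entry i 1
  rw [famAt_mp, Fin.sum_univ_seven, h 0 (by decide) (by decide), h1, h2,
    h 3 (by decide) (by decide), h 4 (by decide) (by decide), h 5 (by decide) (by decide),
    h 6 (by decide) (by decide)]
  simp [rm_zero_left, Exact.om_add, Exact.om_rm, Fin.sum_univ_two, sP]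

theorem famAt_Up (i : Fin 2) (z : colsAt 1 s t ⊗[ℂ] W) :
    famAt S 5 (mp (hom_Up i) (sup_Up i) T z) r =
      famAt S (sP i) (TensorProduct.map LinearMap.id T z) r := by
  rw [famAt_mp, Fin.sum_univ_seven]
  fin_cases i <;> simp [mUp, sP, rm_zero_left, Exact.om_one]

theorem famAt_Bm (k : Fin 2) (z : colsAt 2 s t ⊗[ℂ] W) :
    famAt S 5 (mp (hom_Bm k) (sup_Bm k) T z) r =
      Exact.rm (Exact.dRot k) (∑ l, Exact.rm (Exact.xRot l)
        (famAt S (sM l) (TensorProduct.map LinearMap.id T z) r)) := by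
  have h : ∀ c, c ≠ 3 → c ≠ 4 → mBm k c 5 = 0 := fun c h1 h2 => by
    simp [mBm, sM, Matrix.sum_apply, h1.symm, h2.symm]
  have h1 : mBm k 3 5 = _ := mBm_entry k 0
  have h2 : mBm k 4 5 = _ := mBm_entry k 1
  rw [famAt_mp, Fin.sum_univ_seven, h1, h2, h 0 (by decide) (by decide),
    h 1 (by decide) (by decide), h 2 (by decide) (by decide), h 5 (by decide) (by decide),
    h 6 (by decide) (by decide)]
  simp [rm_zero_left, Exact.om_add, Exact.om_rm, Fin.sum_univ_two, sM]

theorem famAt_Um (k : Fin 2) (z : colsAt 2 s t ⊗[ℂ] W) :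
    famAt S 5 (mp (hom_Um k) (sup_Um k) T z) r =
      famAt S (sM k) (TensorProduct.map LinearMap.id T z) r := by
  rw [famAt_mp, Fin.sum_univ_seven]
  fin_cases k <;> simp [mUm, sM, rm_zero_left, Exact.om_one]

theorem famAt_Gp (m l : Fin 2) (z : colsAt 0 s t ⊗[ℂ] W) :
    famAt S (sP l) (mp (hom_Gp m) (sup_Gp m) T z) r =
      Exact.rm (x m * d l) (famAt S 0 (TensorProduct.map LinearMap.id T z) r) := by
  rw [famAt_mp, Fin.sum_univ_seven]
  fin_cases l <;> simp [mGp, sP, Matrix.sum_apply, rm_zero_left]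

theorem famAt_Gm (m l : Fin 2) (z : colsAt 0 s t ⊗[ℂ] W) :
    famAt S (sM l) (mp (hom_Gm m) (sup_Gm m) T z) r =
      Exact.rm (d m * x l) (famAt S 0 (TensorProduct.map LinearMap.id T z) r) := by
  rw [famAt_mp, Fin.sum_univ_seven]
  fin_cases l <;> simp [mGm, sM, Matrix.sum_apply, rm_zero_left]

theorem famAt_Vp (m l : Fin 2) (z : colsAt 0 s t ⊗[ℂ] W) :
    famAt S (sP l) (mp (hom_Vp m) (sup_Vp m) T z) r =
      if m = l then famAt S 0 (TensorProduct.map LinearMap.id T z) r else 0 := by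
  rw [famAt_mp, Fin.sum_univ_seven]
  fin_cases l <;> fin_cases m <;> simp [mVp, sP, rm_zero_left, Exact.om_one]

theorem famAt_Vm (m l : Fin 2) (z : colsAt 0 s t ⊗[ℂ] W) :
    famAt S (sM l) (mp (hom_Vm m) (sup_Vm m) T z) r =
      if m = l then famAt S 0 (TensorProduct.map LinearMap.id T z) r else 0 := by
  rw [famAt_mp, Fin.sum_univ_seven]
  fin_cases l <;> fin_cases m <;> simp [mVm, sM, rm_zero_left, Exact.om_one]

end Cols

theorem cX_eq (u : Fin 2 → Fam) : Exact.cX u = ∑ l, Exact.rm (Exact.xRot l) (u l) := by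
  simp [Exact.cX, Exact.xRot, Fin.sum_univ_two, Exact.om_neg_left, sub_eq_add_neg]

theorem cD_eq (u : Fin 2 → Fam) : Exact.cD u = ∑ l, Exact.rm (Exact.dRot l) (u l) := by
  simp [Exact.cD, Exact.dRot, Fin.sum_univ_two, Exact.om_neg_left, sub_eq_add_neg]

/-- The rows of the bottom place. -/
def Φ₀ (j : ℕ) (s t : ℤ) : colsAt 4 s t ⊗[ℂ] Lp j →ₗ[ℂ] (Fin 7 → Fam) := famAt (Lp j) 6

/-- The rows of the first place. -/
def Φ₁ (j : ℕ) (s t : ℤ) : colsAt 3 s t ⊗[ℂ] W1 j →ₗ[ℂ] (Fin 7 → PH) :=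
  LinearMap.pi fun r => LinearMap.pi fun i => LinearMap.pi fun k =>
    (LinearMap.proj r ∘ₗ famAt (Lp j) 5) ∘ₗ TensorProduct.map LinearMap.id (pr j i k)

/-- The rows of the second place. -/
def Φ₂ (j : ℕ) (s t : ℤ) :
    (colsAt 1 s t ⊗[ℂ] Lm j) × (colsAt 2 s t ⊗[ℂ] Lp (j + 1)) →ₗ[ℂ] (Fin 7 → PQ) :=
  LinearMap.pi fun r =>
    ((LinearMap.pi fun l => LinearMap.proj r ∘ₗ famAt (Lp (j + 1)) (sM l)) ∘ₗ
        LinearMap.snd ℂ _ _).prod
      ((LinearMap.pi fun l => LinearMap.proj r ∘ₗ famAt (Lm j) (sP l)) ∘ₗ LinearMap.fst ℂ _ _)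

/-- The rows of the last place. -/
def Φ₃ (j : ℕ) (s t : ℤ) : colsAt 0 s t ⊗[ℂ] Lp j →ₗ[ℂ] (Fin 7 → Fam) := famAt (Lp j) 0

variable (j : ℕ) (s t : ℤ)

theorem Φ₀_injective : Function.Injective (Φ₀ j s t) := oneSlot_four.injective j

theorem Φ₁_injective : Function.Injective (Φ₁ j s t) := by
  intro z z' h
  have e : ∀ y : colsAt 3 s t ⊗[ℂ] W1 j,
      y = ∑ i, ∑ k, TensorProduct.map LinearMap.id (inW j i k)
        (TensorProduct.map LinearMap.id (pr j i k) y) := fun y => by
    induction y using TensorProduct.induction_on with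
    | zero => simp
    | add y y' hy hy' =>
      simp only [map_add, Finset.sum_add_distrib]
      rw [← hy, ← hy']
    | tmul M w =>
      simp only [TensorProduct.map_tmul, LinearMap.id_apply, ← TensorProduct.tmul_sum]
      refine congrArg (M ⊗ₜ[ℂ] ·) (funext fun i => funext fun k => ?_)
      fin_cases i <;> fin_cases k <;> simp [inW, pr, Fin.sum_univ_two]
  rw [e z, e z']
  refine Finset.sum_congr rfl fun i _ => Finset.sum_congr rfl fun k _ => congrArg _ ?_
  exact oneSlot_three.injective j (funext fun r => congrFun (congrFun (congrFun h r) i) k)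

theorem Φ₂_injective : Function.Injective (Φ₂ j s t) := fun _ _ h =>
  Prod.ext
    (twoSlot_one.ext (suppIn_Lm j) fun l => funext fun r =>
      congrFun (congrArg Prod.snd (congrFun h r)) l)
    (twoSlot_two.ext (suppIn_Lp (j + 1)) fun l => funext fun r =>
      congrFun (congrArg Prod.fst (congrFun h r)) l)

theorem Φ₃_injective : Function.Injective (Φ₃ j s t) := oneSlot_zero.injective j

theorem range_Φ₀ : LinearMap.range (Φ₀ j s t) = Vert lmF (C₀ j) s t :=
  oneSlot_four.range j s t (C₀ j) fun _ _ => rfl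

theorem range_Φ₃ : LinearMap.range (Φ₃ j s t) = Vert lmF (C₃ j) s t :=
  oneSlot_zero.range j s t (C₃ j) fun w n => by rw [add_zero]; rfl

theorem Φ₁_apply (z : colsAt 3 s t ⊗[ℂ] W1 j) (r : Fin 7) (i k : Fin 2) :
    Φ₁ j s t z r i k = famAt (Lp j) 5 (TensorProduct.map LinearMap.id (pr j i k) z) r := rfl

theorem Φ₂_fst (zp : colsAt 1 s t ⊗[ℂ] Lm j) (zm : colsAt 2 s t ⊗[ℂ] Lp (j + 1)) (r : Fin 7)
    (l : Fin 2) : (Φ₂ j s t (zp, zm) r).1 l = famAt (Lp (j + 1)) (sM l) zm r := rfl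

theorem Φ₂_snd (zp : colsAt 1 s t ⊗[ℂ] Lm j) (zm : colsAt 2 s t ⊗[ℂ] Lp (j + 1)) (r : Fin 7)
    (l : Fin 2) : (Φ₂ j s t (zp, zm) r).2 l = famAt (Lm j) (sP l) zp r := rfl

theorem range_Φ₁ : LinearMap.range (Φ₁ j s t) = Vert lmH (C₁ j) s t := by
  have key := oneSlot_three.range j s t
    (fun w n => Exact.forms Op j ⊓ Exact.valued (fil w (n + 1))) fun _ _ => rfl
  ext c
  simp only [Exact.mem_Vert, C₁, Submodule.mem_pi, Set.mem_univ, true_implies, Finset.sum_apply,
    Exact.lmH_apply]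
  constructor
  · rintro ⟨z, rfl⟩ g i k
    have h : famAt (Lp j) 5 (TensorProduct.map LinearMap.id (pr j i k) z) ∈
        LinearMap.range (famAt (k := 3) (s := s) (t := t) (Lp j) 5) := ⟨_, rfl⟩
    rw [key, Exact.mem_Vert] at h
    exact h g
  · intro h
    have hr : ∀ i k, (fun r => c r i k) ∈
        LinearMap.range (famAt (k := 3) (s := s) (t := t) (Lp j) 5) := fun i k => by
      rw [key, Exact.mem_Vert]
      exact fun g => h g i k
    choose y hy using hr
    refine ⟨∑ i, ∑ k, TensorProduct.map LinearMap.id (inW j i k) (y i k),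
      funext fun r => funext fun i => funext fun k => ?_⟩
    rw [Φ₁_apply]
    simp only [map_sum]
    simp only [← LinearMap.comp_apply (R₂ := ℂ) (TensorProduct.map _ (pr j i k)),
      ← TensorProduct.map_comp, LinearMap.id_comp, pr_comp_inW]
    fin_cases i <;> fin_cases k <;>
      simp [Fin.sum_univ_two, TensorProduct.map_zero_right, TensorProduct.map_id] <;>
      exact congrFun (hy _ _) r

theorem range_Φ₂ : LinearMap.range (Φ₂ j s t) = Vert lmQ (C₂ j) s t := by
  ext c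
  simp only [Exact.mem_Vert, Exact.mem_C₂]
  constructor
  · rintro ⟨⟨zp, zm⟩, rfl⟩ g
    refine ⟨fun l p hp => ?_, fun l => Exact.down_iff.2 fun p hp => ?_, fun p => ?_, fun p => ?_⟩
    · simp [Prod.fst_sum, Exact.lmQ_fst, Exact.lmF_apply, Φ₂_fst,
        (suppIn_Lp (j + 1)).famAt_eq_zero (fun h => hp (Exact.mem_expOf.1 h))]
    · simp [Prod.snd_sum, Exact.lmQ_snd, Exact.lmF_apply, Φ₂_snd,
        (suppIn_Lm j).famAt_eq_zero (fun h => hp (mem_expDown.1 h))]
    · simpa [Prod.fst_sum, Exact.lmQ_fst, Exact.lmF_apply, Φ₂_fst] using twoSlot_two.comb_mem zm g p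
    · simpa [Prod.snd_sum, Exact.lmQ_snd, Exact.lmF_apply, Φ₂_snd] using twoSlot_one.comb_mem zp g p
  · intro h
    obtain ⟨zm, hzm⟩ := twoSlot_two.exists_of_pair (s := s) (t := t) (suppIn_Lp (j + 1))
      (fun r l => (c r).1 l)
      (fun r l p hp => by
        have := (h (Fin.castLE (by norm_num) r)).degX l p fun e => hp (Exact.mem_expOf.2 e)
        simpa [Prod.fst_sum, Exact.lmQ_fst, Exact.lmF_apply, sum_gen_slot] using this)
      (fun g p => by
        simpa [Prod.fst_sum, Exact.lmQ_fst, Exact.lmF_apply] using (h g).levX p)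
    obtain ⟨zp, hzp⟩ := twoSlot_one.exists_of_pair (s := s) (t := t) (suppIn_Lm j)
      (fun r l => (c r).2 l)
      (fun r l p hp => by
        have := Exact.down_iff.1 ((h (Fin.castLE (by norm_num) r)).degD l) p
          fun e => hp (mem_expDown.2 e)
        simpa [Prod.snd_sum, Exact.lmQ_snd, Exact.lmF_apply, sum_gen_slot] using this)
      (fun g p => by
        simpa [Prod.snd_sum, Exact.lmQ_snd, Exact.lmF_apply] using (h g).levD p)
    exact ⟨(zp, zm), funext fun r =>
      Prod.ext (funext fun l => hzm l r) (funext fun l => hzp l r)⟩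

theorem Φ₀_d1C (z : colsAt 3 s t ⊗[ℂ] W1 j) (r : Fin 7) :
    Φ₀ j s t (d1C j s t z) r = δ₁ (Φ₁ j s t z r) := by
  have ha : ∀ (i k : Fin 2) (y : colsAt 3 s t ⊗[ℂ] Lp j) (c : Fin 7),
      famAt (Lp j) c (TensorProduct.map LinearMap.id (aT j i k) y) r =
        Exact.xx i (Exact.dd k (famAt (Lp j) c y r)) := fun i k y c => by
    induction y using TensorProduct.induction_on with
    | zero => simp
    | add y y' hy hy' => simp [hy, hy']
    | tmul M w =>
      funext p
      simp only [TensorProduct.map_tmul, LinearMap.id_apply, famAt_tmul, Exact.xx_apply,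
        Exact.dd_apply]
      show coeff p ((x i * d k) (w : Pol)) • _ = _
      simp only [Module.End.mul_apply, x_apply, d_apply, coeff_X_mul', Finsupp.mem_support_iff,
        ite_not, coeff_pderiv]
      split_ifs <;> simp [smul_smul, mul_comm]
  simp only [Φ₀, d1C, LinearMap.sum_apply, LinearMap.add_apply, map_sum, map_add, Finset.sum_apply,
    Pi.add_apply, famAt_A, famAt_J, famAt_map_neg, Exact.δ₁_apply, Exact.D₁, Φ₁_apply]
  refine Finset.sum_congr rfl fun i _ => Finset.sum_congr rfl fun k _ => ?_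
  rw [← LinearMap.id_comp (LinearMap.id : colsAt 3 s t →ₗ[ℂ] _), TensorProduct.map_comp,
    LinearMap.id_comp, LinearMap.comp_apply, ha]
  module

theorem Φ₁_d2C (zp : colsAt 1 s t ⊗[ℂ] Lm j) (zm : colsAt 2 s t ⊗[ℂ] Lp (j + 1)) (r : Fin 7) :
    Φ₁ j s t (d2pC j s t zp + d2mC j s t zm) r = δ₂ j (Φ₂ j s t (zp, zm) r) := by
  funext i k
  have hxP : ∀ a c, famAt (Lp j) c (TensorProduct.map LinearMap.id (xP j a) zp) r =
      Exact.xx a (famAt (Lm j) c zp r) := fun a c => famAt_map_x _ a (fun _ => rfl) c r zp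
  have hdT : ∀ a c, famAt (Lp j) c (TensorProduct.map LinearMap.id (dT j a) zm) r =
      Exact.dd a (famAt (Lp (j + 1)) c zm r) := fun a c => famAt_map_d _ a (fun _ => rfl) c r zm
  simp only [Φ₁_apply, Exact.δ₂_apply, Exact.D₂X, Exact.D₂D, cX_eq, cD_eq, Φ₂_fst, Φ₂_snd]
  fin_cases i <;> fin_cases k <;>
    simp [d2pC, d2mC, mp_comp, LinearMap.comp_smul, ← LinearMap.comp_assoc, pr_comp_inW, famAt_Bp,
      famAt_Bm, famAt_Up, famAt_Um, famAt_map_neg, Fin.sum_univ_two, hxP, hdT, Exact.om_add,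
      Exact.om_rm, Exact.om_dd, Exact.om_xx, Exact.om_zero, cc, map_add, smul_add] <;>
    module

theorem Φ₂_d3C (z : colsAt 0 s t ⊗[ℂ] Lp j) (r : Fin 7) :
    Φ₂ j s t (d3pC j s t z, d3mC j s t z) r = δ₃ j (Φ₃ j s t z r) := by
  have hxT : ∀ a c, famAt (Lp (j + 1)) c (TensorProduct.map LinearMap.id (xT j a) z) r =
      Exact.xx a (famAt (Lp j) c z r) := fun a c => famAt_map_x _ a (fun _ => rfl) c r z
  have hdP : ∀ a c, famAt (Lm j) c (TensorProduct.map LinearMap.id (dP j a) z) r =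
      Exact.dd a (famAt (Lp j) c z r) := fun a c => famAt_map_d _ a (fun _ => rfl) c r z
  rw [Exact.δ₃_apply]
  refine Prod.ext (funext fun l => ?_) (funext fun l => ?_)
  · rw [Φ₂_fst]
    fin_cases l <;>
      simp [Φ₃, Exact.D₃X, d3mC, famAt_Gm, famAt_Vm, famAt_map_neg, Fin.sum_univ_two, hxT,
        d_x_self, d_x_ne, cc, Exact.om_add_left, Exact.om_one, Exact.om_smul] <;>
      module
  · rw [Φ₂_snd]
    fin_cases l <;>
      simp [Φ₃, Exact.D₃D, d3pC, famAt_Gp, famAt_Vp, famAt_map_neg, Fin.sum_univ_two, hdP] <;>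
      module

theorem lastCol_eq_evS {j j' : ℕ} {s t : ℤ} (h : (j : ℤ) + s = j')
    (z : colsAt 4 s t ⊗[ℂ] Lp j) (r : Fin 7) :
    (lastCol j j' s t h z r : Pol) = evS j (Φ₀ j s t z r) := by
  induction z using TensorProduct.induction_on with
  | zero => simp
  | add z z' hz hz' => simp [map_add, hz, hz']
  | tmul M w =>
    rw [lastCol_tmul, Exact.evS_apply]
    conv_lhs => rw [(suppIn_Lp j).sum_eq w, map_sum]
    exact Finset.sum_congr rfl fun p _ => by simp [Φ₀, famAt_tmul]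

end Vale.Agent.P195.Model
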