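import Vale.Agent.P195.Model.Cplx
import Vale.Agent.P195.Lift

/-!
P195: the elementary matrices of the resolution and of the translation lift.
Slots `0 | 1 2 | 3 4 | 5 | 6`.
-/

noncomputable section

namespace Vale.Agent.P195.Model

open Matrix Weyl
open Maps (a E δ)
open MvPolynomial (pderiv_X)

/-- The two slots of the positive vertex. -/
def sP : Fin 2 → Fin 7 := ![1, 2]

/-- The two slots of the negative vertex. -/
def sM : Fin 2 → Fin 7 := ![3, 4]

/-- `a i k` from `O1` to `O2`. -/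
def mA (i k : Fin 2) : Mat := single 5 6 (a i k)

/-- The unit from `O1` to `O2`. -/
def mJ : Mat := single 5 6 1

/-- Second differential, operator part on `S-`. -/
def mBm (k : Fin 2) : Mat := ∑ l, single (sM l) 5 (δ l k • E - a k l)

/-- Second differential, constant part on `S-`. -/
def mUm (k : Fin 2) : Mat := single (sM k) 5 1

/-- Second differential, operator part on `S+`. -/
def mBp (i : Fin 2) : Mat := ∑ l, single (sP l) 5 (δ i l • (E + 1) - a l i)

/-- Second differential, constant part on `S+`. -/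
def mUp (i : Fin 2) : Mat := single (sP i) 5 1

/-- Third differential, operator part into `S+`. -/
def mGp (m : Fin 2) : Mat := ∑ l, single 0 (sP l) (x m * d l)

/-- Third differential, constant part into `S+`. -/
def mVp (m : Fin 2) : Mat := single 0 (sP m) 1

/-- Third differential, operator part into `S-`. -/
def mGm (m : Fin 2) : Mat := ∑ l, single 0 (sM l) (d m * x l)

/-- Third differential, constant part into `S-`. -/
def mVm (m : Fin 2) : Mat := single 0 (sM m) 1

/-- Scalar translation at a vertex. -/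
def mX (v : Fin 5) (m : Fin 2) : Mat := diagonal fun r => if vx r = v then x m else 0

/-- Correction of the lift from `S-` to `S-`. -/
def mC (l : Fin 2) : Mat := ∑ k, single (sM l) (sM k) (x k)

/-- Lift from `S+` to `S-`, first part. -/
def mF (k : Fin 2) : Mat := ∑ l, single (sP l) (sM k) (x l)

/-- Lift from `S+` to `S-`, second part. -/
def mH (l : Fin 2) : Mat := ∑ k, single (sP l) (sM k) (x k)

/-- Lift from `S+` to `S-`, third part. -/
def mK (m : Fin 2) : Mat :=
  ∑ l, ∑ k, single (sP l) (sM k) (x k * (a l m - δ l m • E))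

/-- `M` goes from vertex `k` to vertex `l`. -/
def Sup (k l : Fin 5) (M : Mat) : Prop := vproj k * M = M ∧ M * vproj l = M

theorem sup_zero (k l : Fin 5) : Sup k l 0 := ⟨mul_zero _, zero_mul _⟩

theorem sup_add {k l : Fin 5} {M M' : Mat} (h : Sup k l M) (h' : Sup k l M') : Sup k l (M + M') :=
  ⟨by rw [mul_add, h.1, h'.1], by rw [add_mul, h.2, h'.2]⟩

theorem sup_sum {ι : Type*} {k l : Fin 5} {s : Finset ι} {M : ι → Mat}
    (h : ∀ i ∈ s, Sup k l (M i)) : Sup k l (∑ i ∈ s, M i) :=
  Finset.sum_induction _ (Sup k l) (fun _ _ => sup_add) (sup_zero k l) h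

theorem sup_single {r s : Fin 7} (u : Op) {k l : Fin 5} (hr : vx r = k) (hs : vx s = l) :
    Sup k l (single r s u) := by
  constructor <;> ext p q <;>
    simp only [vproj, diagonal_mul, mul_diagonal, Matrix.single_apply] <;>
    split_ifs <;> simp_all

theorem sup_A (i k : Fin 2) : Sup 3 4 (mA i k) := sup_single _ rfl rfl

theorem sup_J : Sup 3 4 mJ := sup_single _ rfl rfl

theorem sup_Bm (k : Fin 2) : Sup 2 3 (mBm k) :=
  sup_sum fun l _ => sup_single _ (by fin_cases l <;> rfl) rfl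

theorem sup_Um (k : Fin 2) : Sup 2 3 (mUm k) := sup_single _ (by fin_cases k <;> rfl) rfl

theorem sup_Bp (i : Fin 2) : Sup 1 3 (mBp i) :=
  sup_sum fun l _ => sup_single _ (by fin_cases l <;> rfl) rfl

theorem sup_Up (i : Fin 2) : Sup 1 3 (mUp i) := sup_single _ (by fin_cases i <;> rfl) rfl

theorem sup_Gp (m : Fin 2) : Sup 0 1 (mGp m) :=
  sup_sum fun l _ => sup_single _ rfl (by fin_cases l <;> rfl)

theorem sup_Vp (m : Fin 2) : Sup 0 1 (mVp m) := sup_single _ rfl (by fin_cases m <;> rfl)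

theorem sup_Gm (m : Fin 2) : Sup 0 2 (mGm m) :=
  sup_sum fun l _ => sup_single _ rfl (by fin_cases l <;> rfl)

theorem sup_Vm (m : Fin 2) : Sup 0 2 (mVm m) := sup_single _ rfl (by fin_cases m <;> rfl)

theorem sup_X (v : Fin 5) (m : Fin 2) : Sup v v (mX v m) := by
  refine ⟨?_, ?_⟩ <;> simp only [mX, vproj, diagonal_mul_diagonal] <;> congr 1 <;> ext r <;>
    split_ifs <;> simp

theorem sup_C (l : Fin 2) : Sup 2 2 (mC l) :=
  sup_sum fun k _ => sup_single _ (by fin_cases l <;> rfl) (by fin_cases k <;> rfl)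

theorem sup_F (k : Fin 2) : Sup 1 2 (mF k) :=
  sup_sum fun l _ => sup_single _ (by fin_cases l <;> rfl) (by fin_cases k <;> rfl)

theorem sup_H (l : Fin 2) : Sup 1 2 (mH l) :=
  sup_sum fun k _ => sup_single _ (by fin_cases l <;> rfl) (by fin_cases k <;> rfl)

theorem sup_K (m : Fin 2) : Sup 1 2 (mK m) :=
  sup_sum fun l _ => sup_sum fun k _ =>
    sup_single _ (by fin_cases l <;> rfl) (by fin_cases k <;> rfl)

/-- The extra level allowed at a slot. -/
def lvl : Fin 7 → ℤ := ![0, 0, 0, 0, 0, 1, 2]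

theorem mem_lat_unit {w n : ℤ} {c : Row} (h : ∀ r, c r ∈ fil w (n + lvl r)) : c ∈ lat w n := by
  have hc : c = ∑ r : Fin 7, c r • gen ⟨r, by omega⟩ := by
    ext s
    fin_cases s <;> simp [Fin.sum_univ_seven, gen]
  rw [hc]
  refine Submodule.sum_mem _ fun r _ => smul_gen_mem _ ?_
  have hw : gw ⟨r, by omega⟩ = 0 := by fin_cases r <;> rfl
  have hn : gn ⟨r, by omega⟩ = -lvl r := by fin_cases r <;> rfl
  rw [hw, hn, sub_zero, sub_neg_eq_add]
  exact h r

theorem vm_single (c : Row) (r s : Fin 7) (u : Op) :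
    c ᵥ* single r s u = Pi.single s (c r * u) := by
  ext p
  rcases eq_or_ne s p with rfl | h <;>
    simp [vecMul, dotProduct, Matrix.single_apply, Finset.sum_ite_eq, *]

theorem a_mem (i k : Fin 2) {n : ℤ} (h : 1 ≤ n) : a i k ∈ fil 0 n := by
  have := Weyl.mul_mem (Weyl.x_mem i (le_refl (0 : ℤ))) (Weyl.d_mem k (le_refl (1 : ℤ)))
  exact fil_mono (by simpa using h) (by simpa [a] using this)

theorem E_mem {n : ℤ} (h : 1 ≤ n) : E ∈ fil 0 n := add_mem (a_mem 0 0 h) (a_mem 1 1 h)

theorem colm_mem (l k : Fin 2) {n : ℤ} (h : 1 ≤ n) : δ l k • E - a k l ∈ fil 0 n :=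
  sub_mem (Submodule.smul_mem _ _ (E_mem h)) (a_mem k l h)

theorem colp_mem (i l : Fin 2) {n : ℤ} (h : 1 ≤ n) : δ i l • (E + 1) - a l i ∈ fil 0 n :=
  sub_mem (Submodule.smul_mem _ _ (add_mem (E_mem h) (Weyl.one_mem (by omega)))) (a_mem l i h)

theorem corr_mem (k l m : Fin 2) {n : ℤ} (h : 1 ≤ n) :
    x k * (a l m - δ l m • E) ∈ fil 1 n := by
  have := Weyl.mul_mem (Weyl.x_mem k (le_refl (0 : ℤ)))
    (sub_mem (a_mem l m le_rfl) (Submodule.smul_mem _ (δ l m) (E_mem le_rfl)) :
      a l m - δ l m • E ∈ fil 0 1)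
  exact fil_mono (by simpa using h) (by simpa using this)

theorem dx_mem (l k : Fin 2) {n : ℤ} (h : 1 ≤ n) : d l * x k ∈ fil 0 n := by
  have := Weyl.mul_mem (Weyl.d_mem l (le_refl (1 : ℤ))) (Weyl.x_mem k (le_refl (0 : ℤ)))
  exact fil_mono (by simpa using h) (by simpa using this)

theorem xx_mem (l k : Fin 2) {n : ℤ} (h : 0 ≤ n) : x l * x k ∈ fil 2 n := by
  have := Weyl.mul_mem (Weyl.x_mem l (le_refl (0 : ℤ))) (Weyl.x_mem k (le_refl (0 : ℤ)))
  exact fil_mono (by simpa using h) (by simpa using this)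

theorem dcorr_mem (l' k l m : Fin 2) {n : ℤ} (h : 2 ≤ n) :
    d l' * (x k * (a l m - δ l m • E)) ∈ fil 0 n := by
  have := Weyl.mul_mem (Weyl.d_mem l' (le_refl (1 : ℤ))) (corr_mem k l m (le_refl (1 : ℤ)))
  exact fil_mono (by simpa using h) (by simpa using this)

theorem colm_kill (k : Fin 2) : x 0 * (δ 0 k • E - a k 0) + x 1 * (δ 1 k • E - a k 1) = 0 := by
  refine LinearMap.ext fun p => ?_
  fin_cases k <;> simp [E, a, δ] <;> ring

theorem colp_kill (i : Fin 2) :
    d 0 * (δ i 0 • (E + 1) - a 0 i) + d 1 * (δ i 1 • (E + 1) - a 1 i) = 0 := by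
  refine LinearMap.ext fun p => ?_
  fin_cases i <;> simp [E, a, δ, pderiv_X, Maps.pd_comm] <;> ring

theorem hom_A (i k : Fin 2) : mA i k ∈ hom 0 0 := by
  refine mem_hom_iff.mpr fun g => ?_
  fin_cases g <;> simp [gen, gw, gn, mA, vm_single] <;>
    (first | exact zero_mem _ | skip) <;>
    refine mem_lat_unit fun r => ?_ <;> fin_cases r <;> simp [lvl, a_mem]

theorem hom_J : mJ ∈ hom 0 0 := by
  refine mem_hom_iff.mpr fun g => ?_
  fin_cases g <;> simp [gen, gw, gn, mJ, vm_single] <;>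
    (first | exact zero_mem _ | skip) <;>
    refine mem_lat_unit fun r => ?_ <;> fin_cases r <;> simp [lvl, Weyl.one_mem]

theorem hom_Bm (k : Fin 2) : mBm k ∈ hom 0 0 := by
  refine mem_hom_iff.mpr fun g => ?_
  fin_cases g <;> simp [gen, gw, gn, mBm, sM, vm_single, vecMul_add, Fin.sum_univ_two,
      ← Pi.single_add, colm_kill] <;>
    (first | exact zero_mem _ | skip) <;>
    refine mem_lat_unit fun r => ?_ <;> fin_cases r <;> simp [lvl, colm_mem]

theorem hom_Bp (i : Fin 2) : mBp i ∈ hom 0 0 := by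
  refine mem_hom_iff.mpr fun g => ?_
  fin_cases g <;> simp [gen, gw, gn, mBp, sP, vm_single, vecMul_add, Fin.sum_univ_two,
      ← Pi.single_add, colp_kill, -smul_add] <;>
    (first | exact zero_mem _ | skip) <;>
    refine mem_lat_unit fun r => ?_ <;> fin_cases r <;> simp [lvl, colp_mem, -smul_add]

theorem hom_Um (k : Fin 2) : mUm k ∈ hom 0 0 := by
  refine mem_hom_iff.mpr fun g => ?_
  fin_cases g <;> fin_cases k <;> simp [gen, gw, gn, mUm, sM, vm_single] <;>
    (first | exact zero_mem _ | skip) <;>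
    refine mem_lat_unit fun r => ?_ <;> fin_cases r <;>
    simp [lvl, Weyl.one_mem, Weyl.x_mem]

theorem hom_Up (i : Fin 2) : mUp i ∈ hom 0 0 := by
  refine mem_hom_iff.mpr fun g => ?_
  fin_cases g <;> fin_cases i <;> simp [gen, gw, gn, mUp, sP, vm_single] <;>
    (first | exact zero_mem _ | skip) <;>
    refine mem_lat_unit fun r => ?_ <;> fin_cases r <;>
    simp [lvl, Weyl.one_mem, Weyl.d_mem]

theorem hom_Vp (m : Fin 2) : mVp m ∈ hom 0 0 := by
  refine mem_hom_iff.mpr fun g => ?_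
  fin_cases g <;> fin_cases m <;> simp [gen, gw, gn, mVp, sP, vm_single] <;>
    (first | exact zero_mem _ | skip) <;>
    refine mem_lat_unit fun r => ?_ <;> fin_cases r <;> simp [lvl, Weyl.one_mem]

theorem hom_Vm (m : Fin 2) : mVm m ∈ hom 0 0 := by
  refine mem_hom_iff.mpr fun g => ?_
  fin_cases g <;> fin_cases m <;> simp [gen, gw, gn, mVm, sM, vm_single] <;>
    (first | exact zero_mem _ | skip) <;>
    refine mem_lat_unit fun r => ?_ <;> fin_cases r <;> simp [lvl, Weyl.one_mem]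

theorem gen_vm_zero (g : Fin 9) (hg : g ≠ 0) (u : Op) (s : Fin 7) :
    gen g ᵥ* single 0 s u = 0 := by
  rw [vm_single]
  have h : gen g 0 = 0 := by fin_cases g <;> first | exact absurd rfl hg | simp [gen]
  rw [h, zero_mul, Pi.single_zero]

theorem hom_Gp (m : Fin 2) : mGp m ∈ hom 0 0 := by
  refine mem_hom_iff.mpr fun g => ?_
  rcases eq_or_ne g 0 with rfl | hg
  · have h : gen 0 ᵥ* mGp m = x m • gen 7 := by
      rw [mGp, Fin.sum_univ_two, vecMul_add, vm_single, vm_single]
      ext r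
      fin_cases r <;> simp [gen, sP]
    rw [h]
    exact smul_gen_mem 7 (by simpa [gw, gn] using Weyl.x_mem m (le_refl (0 : ℤ)))
  · simp [mGp, Fin.sum_univ_two, vecMul_add, gen_vm_zero g hg]

theorem hom_Gm (m : Fin 2) : mGm m ∈ hom 0 0 := by
  refine mem_hom_iff.mpr fun g => ?_
  rcases eq_or_ne g 0 with rfl | hg
  · have h : gen 0 ᵥ* mGm m = d m • gen 8 := by
      rw [mGm, Fin.sum_univ_two, vecMul_add, vm_single, vm_single]
      ext r
      fin_cases r <;> simp [gen, sM]
    rw [h]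
    exact smul_gen_mem 8 (by simpa [gw, gn] using Weyl.d_mem m (le_refl (1 : ℤ)))
  · simp [mGm, Fin.sum_univ_two, vecMul_add, gen_vm_zero g hg]

theorem hom_X (v : Fin 5) (m : Fin 2) : mX v m ∈ hom 1 2 := by
  refine mem_hom_iff.mpr fun g => ?_
  refine mem_lat_unit fun r => ?_
  rw [mX, vecMul_diagonal]
  split_ifs
  · fin_cases g <;> fin_cases r <;>
      simp [gen, gw, gn, lvl, Weyl.x_mem, dx_mem, xx_mem]
  · simp

theorem hom_C (l : Fin 2) : mC l ∈ hom 1 2 := by
  refine mem_hom_iff.mpr fun g => ?_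
  fin_cases g <;> fin_cases l <;>
    simp [gen, gw, gn, mC, sM, vm_single, vecMul_add, Fin.sum_univ_two] <;>
    (first | exact zero_mem _ | skip) <;>
    refine mem_lat_unit fun r => ?_ <;> fin_cases r <;>
    simp [lvl, Weyl.x_mem, xx_mem]

theorem hom_F (k : Fin 2) : mF k ∈ hom 1 2 := by
  refine mem_hom_iff.mpr fun g => ?_
  fin_cases g <;> fin_cases k <;>
    simp [gen, gw, gn, mF, sP, sM, vm_single, vecMul_add, Fin.sum_univ_two] <;>
    (first | exact zero_mem _ | skip) <;>
    refine mem_lat_unit fun r => ?_ <;> fin_cases r <;>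
    simp [lvl, Weyl.x_mem, dx_mem, Submodule.add_mem]

theorem hom_H (l : Fin 2) : mH l ∈ hom 1 2 := by
  refine mem_hom_iff.mpr fun g => ?_
  fin_cases g <;> fin_cases l <;>
    simp [gen, gw, gn, mH, sP, sM, vm_single, vecMul_add, Fin.sum_univ_two] <;>
    (first | exact zero_mem _ | skip) <;>
    refine mem_lat_unit fun r => ?_ <;> fin_cases r <;>
    simp [lvl, Weyl.x_mem, dx_mem]

theorem hom_K (m : Fin 2) : mK m ∈ hom 1 2 := by
  refine mem_hom_iff.mpr fun g => ?_
  fin_cases g <;>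
    simp [gen, gw, gn, mK, sP, sM, vm_single, vecMul_add, Fin.sum_univ_two] <;>
    (first | exact zero_mem _ | skip) <;>
    refine mem_lat_unit fun r => ?_ <;> fin_cases r <;>
    simp [lvl, corr_mem, dcorr_mem, Submodule.add_mem]

end Vale.Agent.P195.Model
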