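import Vale.Agent.P195.Model.Cone
import Mathlib.LinearAlgebra.TensorProduct.Prod

/-!
P195: the degree-zero part and the translation part of the projective modules `A e_k ⊗ W`.
-/

noncomputable section

namespace Vale.Agent.P195.Model

open Matrix Weyl
open scoped TensorProduct

/-- Matrices of `hom s t` supported in the columns of a vertex. -/
def colsAt (k : Fin 5) (s t : ℤ) : Submodule ℂ Mat :=
  hom s t ⊓ LinearMap.eqLocus (LinearMap.mulRight ℂ (vproj k)) LinearMap.id

theorem mem_colsAt {k : Fin 5} {s t : ℤ} {M : Mat} :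
    M ∈ colsAt k s t ↔ M ∈ hom s t ∧ M * vproj k = M := Iff.rfl

theorem mul_eV_eq_iff {k : Fin 5} {x : A} :
    x * eV k = x ↔ bPart x * vproj k = bPart x ∧ mPart x * vproj k = mPart x := by
  refine ⟨fun h => ⟨?_, ?_⟩, fun h => ext_parts (by simpa using h.1) ?_⟩
  · conv_rhs => rw [← h]
    simp
  · conv_rhs => rw [← h]
    simp [mPart_mul]
  · simp [mPart_mul, h.2]

/-- A column of the algebra is a pair of columns of matrices. -/
def colEquiv (k : Fin 5) : col k ≃ₗ[ℂ] colsAt k 0 0 × colsAt k 1 2 where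
  toFun g := (⟨bPart (g : A), bPart_mem _, (mul_eV_eq_iff.mp (mem_col.mp g.2)).1⟩,
    ⟨mPart (g : A), mPart_mem _, (mul_eV_eq_iff.mp (mem_col.mp g.2)).2⟩)
  map_add' _ _ := rfl
  map_smul' _ _ := rfl
  invFun p := ⟨mk ⟨p.1.1, (mem_colsAt.mp p.1.2).1⟩ ⟨p.2.1, (mem_colsAt.mp p.2.2).1⟩,
    mem_col.mpr (mul_eV_eq_iff.mpr ⟨(mem_colsAt.mp p.1.2).2, (mem_colsAt.mp p.2.2).2⟩)⟩
  left_inv _ := Subtype.ext (ext_parts rfl rfl)
  right_inv _ := rfl

variable {W W' : Type*} [AddCommGroup W] [Module ℂ W] [AddCommGroup W'] [Module ℂ W']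

/-- Right multiplication between columns of matrices. -/
def rmulC {k l : Fin 5} {s t s' t' s'' t'' : ℤ} (b : Mat) (hb : b ∈ hom s t)
    (hl : b * vproj l = b) (hs : s' + s = s'') (ht : t' + t ≤ t'') :
    colsAt k s' t' →ₗ[ℂ] colsAt l s'' t'' where
  toFun M := ⟨(M : Mat) * b, hom_mul (mem_colsAt.mp M.2).1 hb hs ht,
    show (M : Mat) * b * vproj l = (M : Mat) * b by rw [mul_assoc, hl]⟩
  map_add' M M' := Subtype.ext (add_mul (M : Mat) M' b)
  map_smul' c M := Subtype.ext (smul_mul_assoc c (M : Mat) b)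

/-- The pair of parts of `A e_k ⊗ W`. -/
def partsEquiv (k : Fin 5) :
    Qm k W ≃ₗ[ℂ] (colsAt k 0 0 ⊗[ℂ] W) × (colsAt k 1 2 ⊗[ℂ] W) :=
  (TensorProduct.congr (colEquiv k) (LinearEquiv.refl ℂ W)).trans
    (TensorProduct.prodLeft ℂ ℂ _ _ _)

theorem partsEquiv_tmul (k : Fin 5) (g : col k) (w : W) :
    partsEquiv k (g ⊗ₜ[ℂ] w) = ((colEquiv k g).1 ⊗ₜ[ℂ] w, (colEquiv k g).2 ⊗ₜ[ℂ] w) := rfl

/-- A map given by a degree-zero matrix acts on each part separately. -/
theorem partsEquiv_mapQ_ofB {k l : Fin 5} {b : Mat} (hb : b ∈ hom 0 0) (hl : b * vproj l = b)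
    (T : W →ₗ[ℂ] W') (z : Qm k W) :
    partsEquiv l (mapQ (ofB b hb) (ofB_mul_eV hl) T z) =
      (TensorProduct.map (rmulC b hb hl (by norm_num) (by norm_num)) T (partsEquiv k z).1,
        TensorProduct.map (rmulC b hb hl (by norm_num) (by norm_num)) T (partsEquiv k z).2) := by
  induction z using TensorProduct.induction_on with
  | zero => simp [Prod.ext_iff]
  | add z z' hz hz' => simp [hz, hz']
  | tmul g w =>
    rw [mapQ_tmul, partsEquiv_tmul, partsEquiv_tmul, TensorProduct.map_tmul,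
      TensorProduct.map_tmul]
    refine Prod.ext ?_ ?_
    · refine congrArg (· ⊗ₜ[ℂ] T w) (Subtype.ext ?_)
      show bPart ((g : A) * ofB b hb) = bPart (g : A) * b
      simp
    · refine congrArg (· ⊗ₜ[ℂ] T w) (Subtype.ext ?_)
      show mPart ((g : A) * ofB b hb) = mPart (g : A) * b
      simp [mPart_mul]

/-- A map given by a translation matrix takes the degree-zero part to the translation part. -/
theorem partsEquiv_mapQ_ofN {k l : Fin 5} {n : Mat} (hn : n ∈ hom 1 2) (hl : n * vproj l = n)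
    (T : W →ₗ[ℂ] W') (z : Qm k W) :
    partsEquiv l (mapQ (ofN n hn) (ofN_mul_eV hl) T z) =
      (0, TensorProduct.map (rmulC n hn hl (by norm_num) (by norm_num)) T (partsEquiv k z).1) := by
  induction z using TensorProduct.induction_on with
  | zero => simp [Prod.ext_iff]
  | add z z' hz hz' => simp [hz, hz']
  | tmul g w =>
    rw [mapQ_tmul, partsEquiv_tmul, partsEquiv_tmul, TensorProduct.map_tmul]
    refine Prod.ext ?_ ?_
    · refine (congrArg (· ⊗ₜ[ℂ] T w) (?_ : _ = (0 : colsAt l 0 0))).trans (TensorProduct.zero_tmul _ _)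
      refine Subtype.ext ?_
      show bPart ((g : A) * ofN n hn) = 0
      simp
    · refine congrArg (· ⊗ₜ[ℂ] T w) (Subtype.ext ?_)
      show mPart ((g : A) * ofN n hn) = bPart (g : A) * n
      simp [mPart_mul]

/-- Evaluation of the last column on a form. -/
def lastCol (j j' : ℕ) (s t : ℤ) (h : (j : ℤ) + s = j') :
    colsAt 4 s t ⊗[ℂ] Lp j →ₗ[ℂ] FL j' :=
  TensorProduct.lift <| LinearMap.mk₂ ℂ
    (fun M p r => ⟨(M : Mat) r 6 (p : Pol), by
      have := apply_homog (hom_entry_mem (mem_colsAt.mp M.2).1 r 6)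
        ((MvPolynomial.mem_homogeneousSubmodule _ _).mp p.2)
      rw [h, Int.toNat_natCast] at this
      exact this⟩)
    (fun _ _ _ => funext fun _ => Subtype.ext (by simp))
    (fun _ _ _ => funext fun _ => Subtype.ext (by simp))
    (fun _ _ _ => funext fun _ => Subtype.ext (by simp))
    (fun _ _ _ => funext fun _ => Subtype.ext (by simp))

theorem lastCol_tmul {j j' : ℕ} {s t : ℤ} (h : (j : ℤ) + s = j') (M : colsAt 4 s t) (p : Lp j)
    (r : Fin 7) : (lastCol j j' s t h (M ⊗ₜ[ℂ] p) r : Pol) = (M : Mat) r 6 p := rfl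

/-- The augmentation on the two parts. -/
theorem aug_parts (j : ℕ) (z : Qm 4 (Lp j)) :
    aug j z = Cone.mk (lastCol j (j + 1) 1 2 (by norm_num) (partsEquiv 4 z).2)
      (lastCol j j 0 0 (by norm_num) (partsEquiv 4 z).1) := by
  induction z using TensorProduct.induction_on with
  | zero => simp only [map_zero, Prod.fst_zero, Prod.snd_zero]; rfl
  | add z z' hz hz' =>
    simp only [map_add, hz, hz', Prod.fst_add, Prod.snd_add]
    rfl
  | tmul g p =>
    refine Cone.ext (funext fun r => Subtype.ext ?_) (funext fun r => Subtype.ext ?_)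
    · exact hi_aug_tmul j g p r
    · exact lo_aug_tmul j g p r

end Vale.Agent.P195.Model
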