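import Vale.Agent.P195.Model.Maps
import Vale.Agent.P195.Model.Parts

/-!
P195: the differentials on the parts of the terms of the resolution.
-/

noncomputable section

namespace Vale.Agent.P195.Model

open Matrix Weyl
open scoped TensorProduct

variable {W W' : Type*} [AddCommGroup W] [Module ℂ W] [AddCommGroup W'] [Module ℂ W'] {s t : ℤ}

/-- The map of a degree-zero matrix on one part. -/
def mp {k l : Fin 5} {M : Mat} (hM : M ∈ hom 0 0) (hs : Sup k l M) (T : W →ₗ[ℂ] W') :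
    colsAt k s t ⊗[ℂ] W →ₗ[ℂ] colsAt l s t ⊗[ℂ] W' :=
  TensorProduct.map (rmulC M hM hs.2 (add_zero s) (add_zero t).le) T

theorem partsEquiv_mqB {k l : Fin 5} {M : Mat} (hM : M ∈ hom 0 0) (hs : Sup k l M)
    (T : W →ₗ[ℂ] W') (z : Qm k W) :
    partsEquiv l (mqB hM hs T z) = (mp hM hs T (partsEquiv k z).1, mp hM hs T (partsEquiv k z).2) :=
  partsEquiv_mapQ_ofB hM hs.2 T z

/-- First differential on a part. -/
def d1C (j : ℕ) (s t : ℤ) : colsAt 3 s t ⊗[ℂ] W1 j →ₗ[ℂ] colsAt 4 s t ⊗[ℂ] Lp j :=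
  ∑ i, ∑ k, (mp (hom_A i k) (sup_A i k) (pr j i k)
    + mp hom_J sup_J ((-1 : ℂ) • (aT j i k ∘ₗ pr j i k)))

/-- Second differential from `S+` on a part. -/
def d2pC (j : ℕ) (s t : ℤ) : colsAt 1 s t ⊗[ℂ] Lm j →ₗ[ℂ] colsAt 3 s t ⊗[ℂ] W1 j :=
  ∑ i, ∑ k, (mp (hom_Bp i) (sup_Bp i) (inW j i k ∘ₗ xP j k)
    + mp (hom_Up i) (sup_Up i) (-cc j • (inW j i k ∘ₗ xP j k))
    + mp (hom_Up k) (sup_Up k) (cc j • (inW j i i ∘ₗ xP j k)))

/-- Second differential from `S-` on a part. -/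
def d2mC (j : ℕ) (s t : ℤ) : colsAt 2 s t ⊗[ℂ] Lp (j + 1) →ₗ[ℂ] colsAt 3 s t ⊗[ℂ] W1 j :=
  ∑ i, ∑ k, (mp (hom_Bm k) (sup_Bm k) (inW j i k ∘ₗ dT j i)
    + mp (hom_Um k) (sup_Um k) (-cc j • (inW j i k ∘ₗ dT j i))
    + mp (hom_Um k) (sup_Um k) (cc j • (inW j i i ∘ₗ dT j k)))

/-- Third differential into `S+` on a part. -/
def d3pC (j : ℕ) (s t : ℤ) : colsAt 0 s t ⊗[ℂ] Lp j →ₗ[ℂ] colsAt 1 s t ⊗[ℂ] Lm j :=
  ∑ m, (mp (hom_Gp m) (sup_Gp m) (dP j m) + mp (hom_Vp m) (sup_Vp m) (-cc j • dP j m))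

/-- Third differential into `S-` on a part. -/
def d3mC (j : ℕ) (s t : ℤ) : colsAt 0 s t ⊗[ℂ] Lp j →ₗ[ℂ] colsAt 2 s t ⊗[ℂ] Lp (j + 1) :=
  ∑ m, (mp (hom_Vm m) (sup_Vm m) (cc j • xT j m)
    + mp (hom_Gm m) (sup_Gm m) ((-1 : ℂ) • xT j m))

theorem partsEquiv_d1 (j : ℕ) (z : Q1 j) :
    partsEquiv 4 (d1 j z) = (d1C j 0 0 (partsEquiv 3 z).1, d1C j 1 2 (partsEquiv 3 z).2) := by
  simp only [d1, d1C, LinearMap.sum_apply, LinearMap.add_apply, map_sum, map_add, partsEquiv_mqB]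
  simp only [Prod.ext_iff, Prod.fst_sum, Prod.snd_sum, Prod.fst_add, Prod.snd_add, and_self]

theorem partsEquiv_d2p (j : ℕ) (z : Qm 1 (Lm j)) :
    partsEquiv 3 (d2p j z) = (d2pC j 0 0 (partsEquiv 1 z).1, d2pC j 1 2 (partsEquiv 1 z).2) := by
  simp only [d2p, d2pC, LinearMap.sum_apply, LinearMap.add_apply, map_sum, map_add, partsEquiv_mqB]
  simp only [Prod.ext_iff, Prod.fst_sum, Prod.snd_sum, Prod.fst_add, Prod.snd_add, and_self]

theorem partsEquiv_d2m (j : ℕ) (z : Qm 2 (Lp (j + 1))) :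
    partsEquiv 3 (d2m j z) = (d2mC j 0 0 (partsEquiv 2 z).1, d2mC j 1 2 (partsEquiv 2 z).2) := by
  simp only [d2m, d2mC, LinearMap.sum_apply, LinearMap.add_apply, map_sum, map_add, partsEquiv_mqB]
  simp only [Prod.ext_iff, Prod.fst_sum, Prod.snd_sum, Prod.fst_add, Prod.snd_add, and_self]

theorem partsEquiv_d3p (j : ℕ) (z : Q3 j) :
    partsEquiv 1 (d3p j z) = (d3pC j 0 0 (partsEquiv 0 z).1, d3pC j 1 2 (partsEquiv 0 z).2) := by
  simp only [d3p, d3pC, LinearMap.sum_apply, LinearMap.add_apply, map_sum, map_add, partsEquiv_mqB]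
  simp only [Prod.ext_iff, Prod.fst_sum, Prod.snd_sum, Prod.fst_add, Prod.snd_add, and_self]

theorem partsEquiv_d3m (j : ℕ) (z : Q3 j) :
    partsEquiv 2 (d3m j z) = (d3mC j 0 0 (partsEquiv 0 z).1, d3mC j 1 2 (partsEquiv 0 z).2) := by
  simp only [d3m, d3mC, LinearMap.sum_apply, LinearMap.add_apply, map_sum, map_add, partsEquiv_mqB]
  simp only [Prod.ext_iff, Prod.fst_sum, Prod.snd_sum, Prod.fst_add, Prod.snd_add, and_self]

end Vale.Agent.P195.Model
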